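import Vale.Agent.P272.F.H.Defs

/-! P272 F/H/MV2 (task). Helper names start with `hmv2_`.
Plan. For `x` take `k = ch x` and `V` from `Sup`; both sides are continuous in `V`, units are dense (`V + s • 1`, finitely many eigenvalues; or `det (V + s)` is a nonzero polynomial or analytic function of `s`), so `V` can be taken a unit. The strict inequality persists on a ball around `e k x` (`pv_trL_cont`, continuity of `loc φ k`, `l k`, `maR`). `θ x = χ · bump (e k ·)` with `χ` from `exists_cut A k (3/2) 2` and a `ContDiffBump` at `e k x` inside that ball (`Sm.cut_mul`); finite subcover by `{θ x > 0}` (`pv_cont`), normalise by the sum (`sm_sum`, `Sm.comp` with the inverse, `Sm.mul`). -/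

open Metric Set Filter Topology Complex MeasureTheory
open scoped ContDiff

noncomputable section

namespace Vale.Agent.P272

variable {n : ℕ} {X : Type} [TopologicalSpace X] {A : Atl n X}

theorem hmv2_unit {u : E n → ℝ} {y : E n} {l : ℝ} {V : L n} (h : trL u y V < maR l V) :
    ∃ V, IsUnit V ∧ trL u y V < maR l V := by
  have c1 : Continuous fun t : ℂ => t • (1 : L n) + V := by fun_prop
  have c2 : Continuous fun W : L n => trL u y W := by
    unfold trL levi
    fun_prop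
  have c3 : Continuous fun W : L n => maR l W := by
    have : Continuous fun W : L n => W.det := ContinuousLinearMap.continuous_det
    unfold maR
    refine continuous_const.mul (Continuous.rpow_const (by fun_prop) fun _ => Or.inr (by positivity))
  have e0 : (0 : ℂ) • (1 : L n) + V = V := by rw [zero_smul ℂ (1 : L n), zero_add]
  have e1 : ∀ᶠ t : ℂ in 𝓝 0, trL u y (t • (1 : L n) + V) < maR l (t • (1 : L n) + V) :=
    (c2.comp c1).continuousAt.eventually_lt (c3.comp c1).continuousAt (by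
      simp only [Function.comp, e0]
      exact h)
  have e2 : ∀ᶠ t : ℂ in 𝓝[≠] 0, t ∉ spectrum ℂ (-(V : Module.End ℂ (E n))) :=
    nhdsNE_le_cofinite 0 (Module.End.finite_spectrum _).eventually_cofinite_notMem
  obtain ⟨t, h1, h2⟩ := ((e1.filter_mono nhdsWithin_le_nhds).and e2).exists
  refine ⟨_, ContinuousLinearMap.isUnit_iff_bijective.2 ?_, h1⟩
  rw [spectrum.notMem_iff, sub_neg_eq_add, Algebra.algebraMap_eq_smul_one] at h2
  exact (Module.End.isUnit_iff _).1 h2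

theorem hmv2_pt [T2Space X] (θ : A.Pot) (v : A.LV) {φ : X → ℝ}
    (h : Atl.Sup θ.u (Atl.maF v 0) φ) (a : X) : ∃ (χ : X → ℝ) (V : L n),
      0 < χ a ∧ A.Sm χ ∧ IsUnit V ∧ (∀ x, 0 ≤ χ x) ∧
        (∀ x, ¬ A.In (A.ch a) 2 x → χ =ᶠ[𝓝 x] 0) ∧ ∀ x, χ x ≠ 0 →
        trL (fun y => θ.u (A.ch a) y + A.loc φ (A.ch a) y) (A.e (A.ch a) x) V ≤
          maR (φ x + v.l (A.ch a) (A.e (A.ch a) x)) V := by
  obtain ⟨s1, s2⟩ := A.ch_in a
  obtain ⟨V₀, h0⟩ := h.2 _ a s1
  obtain ⟨V, hV, h1⟩ := hmv2_unit (l := φ a + v.l (A.ch a) (A.e (A.ch a) a)) (V := V₀)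
    (by simpa [Atl.maF, Atl.loc] using h0)
  have a1 := pv_at h.1 s1
  have a2 : ContDiffAt ℝ ∞ (v.l (A.ch a)) (A.e (A.ch a) a) := pv_pot_at v.toPot s1
  have c1 : ContinuousAt (fun y => maR (A.loc φ (A.ch a) y + v.l (A.ch a) y) V)
      (A.e (A.ch a) a) := by
    unfold maR
    exact continuousAt_const.mul (ContinuousAt.rpow_const
      (((Real.continuous_exp.continuousAt).comp (a1.continuousAt.add a2.continuousAt)).mul
        continuousAt_const) (Or.inr (by positivity)))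
  have e1 := (pv_trL_cont ((pv_pot_at θ s1).add a1) V).eventually_lt c1 (by
    rw [pv_loc φ s1]
    exact h1)
  obtain ⟨δ, hδ, e2⟩ := Metric.eventually_nhds_iff.1 e1
  obtain ⟨χ, c2, c3, c4, c5⟩ := exists_cut A (A.ch a) (r := 1) (R := 2) one_pos (by norm_num)
    (by norm_num)
  let b : ContDiffBump (A.e (A.ch a) a) := ⟨δ / 2, δ, half_pos hδ, half_lt_self hδ⟩
  refine ⟨fun x => χ x * b (A.e (A.ch a) x), V, ?_, c2.cut_mul (by norm_num)
    (fun x hx => (c5 x hx).eq_of_nhds) fun y _ => b.contDiff.contDiffAt, hV,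
    fun x => mul_nonneg (c3 x).1 (b.nonneg' _), fun x hx => (c5 x hx).mono fun x' hx' => ?_,
    fun x hx => ?_⟩
  · show 0 < χ a * b (A.e (A.ch a) a)
    rw [c4 a ⟨s1, s2.le⟩, b.one_of_mem_closedBall (mem_closedBall_self b.rIn_pos.le)]
    norm_num
  · simp only [hx', Pi.zero_apply, zero_mul]
  · have h2 : A.In (A.ch a) 2 x := by
      by_contra h3
      exact left_ne_zero_of_mul hx (c5 x h3).eq_of_nhds
    have h3 : A.e (A.ch a) x ∈ Function.support b := right_ne_zero_of_mul hx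
    rw [b.support_eq] at h3
    have h4 := (e2 h3).le
    rwa [pv_loc φ h2.1] at h4

theorem glue_loc [T2Space X] [CompactSpace X] (hn : 1 ≤ n) (θ : A.Pot) (v : A.LV) {φ : X → ℝ}
    (h : Atl.Sup θ.u (Atl.maF v 0) φ) : ∃ (s : Finset X) (χ : X → X → ℝ) (V : X → L n),
      (∀ a, A.Sm (χ a) ∧ IsUnit (V a) ∧ (∀ x, 0 ≤ χ a x) ∧
        (∀ x, ¬ A.In (A.ch a) 2 x → χ a =ᶠ[𝓝 x] 0) ∧ ∀ x, χ a x ≠ 0 →
        trL (fun y => θ.u (A.ch a) y + A.loc φ (A.ch a) y) (A.e (A.ch a) x) (V a) ≤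
          maR (φ x + v.l (A.ch a) (A.e (A.ch a) x)) (V a)) ∧ ∀ x, ∑ a ∈ s, χ a x = 1 := by
  choose χ V h0 h1 h2 h3 h4 h5 using hmv2_pt θ v h
  obtain ⟨s, hs⟩ := CompactSpace.elim_nhds_subcover (fun a => {x | 0 < χ a x}) fun a =>
    (isOpen_lt continuous_const (pv_cont (h1 a))).mem_nhds (h0 a)
  have hS : ∀ x, 0 < ∑ a ∈ s, χ a x := fun x => by
    have hx : x ∈ ⋃ a ∈ s, {x | 0 < χ a x} := hs ▸ mem_univ x
    obtain ⟨a, ha, hx⟩ := mem_iUnion₂.1 hx
    exact Finset.sum_pos' (fun a _ => h3 a x) ⟨a, ha, hx⟩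
  have hI : A.Sm fun x => (∑ a ∈ s, χ a x)⁻¹ :=
    (Atl.sm_sum s fun a _ => h1 a).comp (g := fun r => r⁻¹) fun x => contDiffAt_inv ℝ (hS x).ne'
  refine ⟨s, fun a x => χ a x * (∑ a ∈ s, χ a x)⁻¹, V, fun a => ⟨(h1 a).mul hI, h2 a,
    fun x => mul_nonneg (h3 a x) (inv_nonneg.2 (hS x).le),
    fun x hx => (h4 a x hx).mono fun x' hx' => ?_,
    fun x hx => h5 a x (left_ne_zero_of_mul hx)⟩, fun x => ?_⟩
  · simp only [hx', Pi.zero_apply, zero_mul]
  · rw [← Finset.sum_mul, mul_inv_cancel₀ (hS x).ne']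

end Vale.Agent.P272
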