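import Vale.Agent.P272.F.H.MV1
import Vale.Agent.P272.F.H.MV2

/-! P272 F/H/MV3 (task). Helper names start with `hmv3_`.
Plan. `P j y = ∑ a ∈ s, χ a x • (T a * star (T a))`, `x = (e j).symm y`, `T a = tr j (ch a) x * V a`. Smoothness: a term vanishes near `y`, or `x ∈ source (ch a)` and `y' ↦ tr j (ch a) (symm y') = fderiv (e j ∘ (e k).symm) (e k (symm y'))` is analytic (`tr_analytic`); `star` is real linear (`starL' ℝ`). `tr_cocycle`. Inequality: `rtr_sum`, `trL_eq`, `(θ.addSm _).trL_chg`, `maR_chg`, `v.cmp`, `det_conc`. -/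

open Metric Set Filter Topology Complex MeasureTheory
open scoped ContDiff

noncomputable section

namespace Vale.Agent.P272

variable {n : ℕ} {X : Type} [TopologicalSpace X] {A : Atl n X}

theorem hmv3_tr {j k : Fin A.N} {y : E n} (hy : y ∈ (A.e j).target)
    (hk : (A.e j).symm y ∈ (A.e k).source) :
    ContDiffAt ℝ ∞ (fun y' => A.tr j k ((A.e j).symm y')) y := by
  have hj := (A.e j).map_target hy
  have h1 := (Atl.tr_analytic hj hk).fderiv
  have h2 := Atl.tr_analytic hk hj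
  rw [(A.e j).right_inv hy] at h2
  have h3 : AnalyticAt ℂ (fderiv ℂ (A.e j ∘ (A.e k).symm) ∘ (A.e k ∘ (A.e j).symm)) y :=
    AnalyticAt.comp h1 h2
  exact (h3.contDiffAt (n := ∞)).restrict_scalars ℝ

theorem hmv3_qf {ι : Type} (s : Finset ι) (c : ι → ℝ) (T : ι → L n) (b : E n) :
    qf (∑ a ∈ s, (c a : ℂ) • (T a * star (T a))) b = ∑ a ∈ s, c a * ‖star (T a) b‖ ^ 2 := by
  have e : ∀ a, qf (T a * star (T a)) b = ‖star (T a) b‖ ^ 2 := fun a => by
    have h := qf_conj 1 (star (T a)) b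
    rwa [star_star, mul_one, qf_one] at h
  simp only [← e, qf, sum_apply, smul_apply, inner_sum, inner_smul_right, Complex.re_sum,
    Complex.re_ofReal_mul]

theorem hmv3_pos {ι : Type} (s : Finset ι) {c : ι → ℝ} {T : ι → L n} (h0 : ∀ a, 0 ≤ c a)
    (h1 : ∑ a ∈ s, c a = 1) (hT : ∀ a, c a ≠ 0 → IsUnit (T a)) (b : E n) (hb : b ≠ 0) :
    0 < qf (∑ a ∈ s, (c a : ℂ) • (T a * star (T a))) b := by
  rw [hmv3_qf]
  obtain ⟨a, ha, hc⟩ := Finset.exists_ne_zero_of_sum_ne_zero (h1.trans_ne one_ne_zero)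
  refine Finset.sum_pos' (fun i _ => mul_nonneg (h0 i) (sq_nonneg _)) ⟨a, ha, ?_⟩
  refine mul_pos ((h0 a).lt_of_ne hc.symm) (pow_pos (norm_pos_iff.2 fun h => hb ?_) 2)
  obtain ⟨W, hW⟩ := (hT a hc).star.exists_left_inv
  have h2 : (W * star (T a)) b = W (star (T a) b) := rfl
  rw [hW, h, map_zero] at h2
  exact h2

theorem mv_glue [T2Space X] [CompactSpace X] (hn : 1 ≤ n) (θ : A.Pot) (v : A.LV) {φ : X → ℝ}
    (h : Atl.Sup θ.u (Atl.maF v 0) φ) : ∃ P : Fin A.N → E n → L n,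
      (∀ j, ContDiffOn ℝ ∞ (P j) (A.e j).target) ∧
      (∀ j, ∀ y ∈ (A.e j).target, IsSelfAdjoint (P j y) ∧ ∀ a, a ≠ 0 → 0 < qf (P j y) a) ∧
      (∀ j k x, x ∈ (A.e j).source → x ∈ (A.e k).source →
        P j (A.e j x) = A.tr j k x * P k (A.e k x) * star (A.tr j k x)) ∧
      ∀ j x (Γ : L n), x ∈ (A.e j).source →
        (∀ a, levi (fun y => θ.u j y + A.loc φ j y) (A.e j x) a = qf Γ a) →
        rtr (Γ * P j (A.e j x)) ≤
          n * (Real.exp (φ x + v.l j (A.e j x)) * ‖(P j (A.e j x)).det‖) ^ (1 / n : ℝ) := by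
  obtain ⟨s, χ, V, H, h1⟩ := glue_loc hn θ v h
  have hs : ∀ a x, χ a x ≠ 0 → x ∈ (A.e (A.ch a)).source := fun a x hx => by
    by_contra h0
    exact hx ((H a).2.2.2.1 x fun hi => h0 hi.1).eq_of_nhds
  have hp : ∀ j x, x ∈ (A.e j).source → ∀ b, b ≠ 0 → 0 < qf (∑ a ∈ s, (χ a x : ℂ) •
      (A.tr j (A.ch a) x * V a * star (A.tr j (A.ch a) x * V a))) b := fun j x hx =>
    hmv3_pos s (fun a => (H a).2.2.1 x) (h1 x) fun a ha =>
      (Atl.tr_unit hx (hs a x ha)).mul (H a).2.1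
  refine ⟨fun j y => ∑ a ∈ s, (χ a ((A.e j).symm y) : ℂ) •
    (A.tr j (A.ch a) ((A.e j).symm y) * V a * star (A.tr j (A.ch a) ((A.e j).symm y) * V a)),
    fun j y hy => ?_, fun j y hy => ⟨?_, hp j _ ((A.e j).map_target hy)⟩,
    fun j k x hj hk => ?_, fun j x Γ hj hΓ => ?_⟩
  · refine (ContDiffAt.sum fun a _ => ?_).contDiffWithinAt
    by_cases hi : A.In (A.ch a) 2 ((A.e j).symm y)
    · have h2 : ContDiffAt ℝ ∞ (fun y' => A.tr j (A.ch a) ((A.e j).symm y') * V a) y :=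
        (hmv3_tr hy hi.1).mul contDiffAt_const
      have h3 : ContDiffAt ℝ ∞ (fun y' => star (A.tr j (A.ch a) ((A.e j).symm y') * V a)) y :=
        (starL' ℝ : L n ≃L[ℝ] L n).contDiff.contDiffAt.comp y h2
      have h4 : ContDiffAt ℝ ∞ (fun y' => (χ a ((A.e j).symm y') : ℂ)) y :=
        Complex.ofRealCLM.contDiff.contDiffAt.comp y
          (((H a).1 j).contDiffAt ((A.e j).open_target.mem_nhds hy))
      exact h4.smul (h2.mul h3)
    · have h2 := ((A.e j).continuousAt_symm hy).tendsto.eventually ((H a).2.2.2.1 _ hi)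
      refine (contDiffAt_const (c := (0 : L n))).congr_of_eventuallyEq (h2.mono fun y' hy' => ?_)
      have h3 : χ a ((A.e j).symm y') = 0 := hy'
      have z : ∀ T : L n, (0 : ℂ) • T = 0 := fun T => zero_smul ℂ T
      simp only [h3, Complex.ofReal_zero, z]
  · beta_reduce
    refine isSelfAdjoint_sum (R := L n) s fun a _ => ?_
    exact IsSelfAdjoint.smul (Complex.conj_ofReal _) (IsSelfAdjoint.mul_star_self _)
  · simp only [(A.e j).left_inv hj, (A.e k).left_inv hk, Finset.mul_sum, Finset.sum_mul]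
    refine Finset.sum_congr rfl fun a _ => ?_
    by_cases h0 : χ a x = 0
    · have z : ∀ T : L n, (0 : ℂ) • T = 0 := fun T => zero_smul ℂ T
      simp only [h0, Complex.ofReal_zero, z, mul_zero, zero_mul]
    · rw [← Atl.tr_cocycle hj hk (hs a x h0)]
      simp only [star_mul, mul_smul_comm, smul_mul_assoc, mul_assoc]
  · simp only [(A.e j).left_inv hj]
    have h2 := det_conc hn s (χ := fun a => χ a x) (fun a => A.tr j (A.ch a) x * V a)
      (fun a _ => (H a).2.2.1 x) (hp j x hj)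
    have h3 := mul_le_mul_of_nonneg_left h2 (by positivity :
      0 ≤ n * Real.exp (φ x + v.l j (A.e j x)) ^ (1 / n : ℝ))
    rw [Real.mul_rpow (Real.exp_pos _).le (norm_nonneg _), ← mul_assoc (n : ℝ)]
    refine le_trans ?_ h3
    rw [Finset.mul_sum, Finset.mul_sum, rtr_sum]
    refine Finset.sum_le_sum fun a _ => ?_
    rw [mul_smul_comm, rtr_smul, ← trL_eq hΓ]
    by_cases h0 : χ a x = 0
    · simp only [h0, zero_mul, mul_zero, le_refl]
    · have h4 := (H a).2.2.2.2 x h0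
      have h5 := (θ.addSm h.1).trL_chg hj (hs a x h0) (V a)
      rw [v.cmp j (A.ch a) x hj (hs a x h0), ← add_assoc, maR_chg _ (Atl.tr_unit hj (hs a x h0)),
        maR, Real.mul_rpow (Real.exp_pos _).le (sq_nonneg _)] at h4
      have h6 := mul_le_mul_of_nonneg_left (h5.symm.trans_le h4) ((H a).2.2.1 x)
      exact h6.trans_eq (by ring)

end Vale.Agent.P272
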