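import Vale.Agent.P272.F.H.MV1
import Vale.Agent.P272.AtlC

/-! P272 F/H/MV4 (task). Helper names start with `hmv4_`.
Plan. `mk_met` with the displayed `Γ`. Smoothness: `contDiffAt_ringInverse`, `analyticAt_det`, `‖d‖ = sqrt (‖d‖^2)` or `ContDiffAt.norm` over `ℝ` at `d ≠ 0`, `ContDiffAt.rpow_const_of_ne`. Positivity of the inverse: `a = P b`. `cmp`: `tr_mul`, `m.cmp`, `det_mul'`, `norm_det_star`, so the scalar factor does not depend on the chart. Determinant: `LinearMap.det_smul`, `det (inverse P) * det P = 1`. -/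

open Metric Set Filter Topology Complex MeasureTheory
open scoped ContDiff

noncomputable section

namespace Vale.Agent.P272

variable {n : ℕ} {X : Type} [TopologicalSpace X] {A : Atl n X}

theorem hmv4_inv {P Q T S : L n} (hP : IsUnit P) (hQ : IsUnit Q) (hS : S * T = 1)
    (h : P = T * Q * star T) : Ring.inverse Q = star T * Ring.inverse P * T := by
  have h1 : Q * (star T * Ring.inverse P * T) = S * (P * Ring.inverse P) * T := by
    calc _ = S * T * (Q * (star T * Ring.inverse P * T)) := by rw [hS, one_mul]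
      _ = S * (T * Q * star T * Ring.inverse P) * T := by simp only [mul_assoc]
      _ = _ := by rw [← h]
  rw [Ring.mul_inverse_cancel _ hP, mul_one, hS] at h1
  rw [← mul_one (Ring.inverse Q), ← h1, ← mul_assoc, Ring.inverse_mul_cancel _ hQ, one_mul]

theorem hmv4_qf (c : ℝ) (T : L n) (a : E n) : qf ((c : ℂ) • T) a = c * qf T a := by
  rw [qf, qf, smul_apply, inner_smul_right, Complex.re_ofReal_mul]

theorem hmv4_sa {P : L n} (h : IsSelfAdjoint P) : IsSelfAdjoint (Ring.inverse P) := by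
  rw [IsSelfAdjoint, ← Ring.inverse_star, h.star_eq]

theorem hmv4_pos {P : L n} (h : IsSelfAdjoint P) (h0 : ∀ a, a ≠ 0 → 0 < qf P a) {a : E n}
    (ha : a ≠ 0) : 0 < qf (Ring.inverse P) a := by
  have h1 := qf_conj P (Ring.inverse P) a
  have h2 := Ring.mul_inverse_cancel _ (pos_unit h0)
  rw [mul_assoc, h2, mul_one, (hmv4_sa h).star_eq] at h1
  rw [h1]
  refine h0 _ fun e => ha ?_
  have h3 : (P * Ring.inverse P) a = P (Ring.inverse P a) := rfl
  rwa [h2, e, map_zero] at h3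

theorem hmv4_det (hn : 1 ≤ n) {P : L n} (hP : IsUnit P) (l : ℝ) :
    Real.log ‖((((Real.exp l * ‖P.det‖) ^ (1 / n : ℝ) : ℝ) : ℂ) • Ring.inverse P).det‖ = l := by
  have h1 : ∀ (c : ℂ) (T : L n), (c • T).det = c ^ n * T.det := fun c T => by
    have := LinearMap.det_smul c (T : E n →ₗ[ℂ] E n)
    rw [finrank_euclideanSpace_fin] at this
    exact this
  have h2 := congrArg norm (det_mul' P (Ring.inverse P))
  have h3 : (1 : L n).det = 1 := map_one LinearMap.det
  rw [Ring.mul_inverse_cancel _ hP, h3, norm_one, norm_mul] at h2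
  have h4 : 0 ≤ Real.exp l * ‖P.det‖ := by positivity
  rw [h1, norm_mul, norm_pow, Complex.norm_real, Real.norm_of_nonneg (Real.rpow_nonneg h4 _),
    one_div, Real.rpow_inv_natCast_pow h4 (by omega), mul_assoc, ← h2, mul_one, Real.log_exp]

theorem met_of (hn : 1 ≤ n) (m : A.LV) {P : Fin A.N → E n → L n}
    (h1 : ∀ j, ContDiffOn ℝ ∞ (P j) (A.e j).target)
    (h2 : ∀ j, ∀ y ∈ (A.e j).target, IsSelfAdjoint (P j y) ∧ ∀ a, a ≠ 0 → 0 < qf (P j y) a)
    (h3 : ∀ j k x, x ∈ (A.e j).source → x ∈ (A.e k).source →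
      P j (A.e j x) = A.tr j k x * P k (A.e k x) * star (A.tr j k x)) :
    ∃ g : Met A, (∀ j y, g.Γ j y = (((Real.exp (m.l j y) * ‖(P j y).det‖) ^ (1 / n : ℝ) : ℝ) : ℂ) •
      Ring.inverse (P j y)) ∧ (∀ j, ∀ y ∈ (A.e j).target, Real.log ‖(g.Γ j y).det‖ = m.l j y) ∧
      ∀ j k x, x ∈ (A.e j).source → x ∈ (A.e k).source →
        g.Γ k (A.e k x) = star (A.tr j k x) * g.Γ j (A.e j x) * A.tr j k x := by
  have hu : ∀ j, ∀ y ∈ (A.e j).target, IsUnit (P j y) := fun j y hy => pos_unit (h2 j y hy).2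
  have h0 : ∀ j, ∀ y ∈ (A.e j).target, 0 < Real.exp (m.l j y) * ‖(P j y).det‖ := fun j y hy =>
    mul_pos (Real.exp_pos _) (norm_pos_iff.2 (det_ne (hu j y hy)))
  have hc : ∀ j k x, x ∈ (A.e j).source → x ∈ (A.e k).source →
      (((Real.exp (m.l k (A.e k x)) * ‖(P k (A.e k x)).det‖) ^ (1 / n : ℝ) : ℝ) : ℂ) •
        Ring.inverse (P k (A.e k x)) = star (A.tr j k x) *
      ((((Real.exp (m.l j (A.e j x)) * ‖(P j (A.e j x)).det‖) ^ (1 / n : ℝ) : ℝ) : ℂ) •
        Ring.inverse (P j (A.e j x))) * A.tr j k x := by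
    intro j k x hj hk
    have a1 : Real.exp (m.l k (A.e k x)) * ‖(P k (A.e k x)).det‖ =
        Real.exp (m.l j (A.e j x)) * ‖(P j (A.e j x)).det‖ := by
      rw [m.cmp j k x hj hk, h3 j k x hj hk, det_mul', det_mul', norm_mul, norm_mul,
        norm_det_star, Real.exp_add,
        Real.exp_log (pow_pos (norm_pos_iff.2 (det_ne (Atl.tr_unit hj hk))) 2)]
      ring
    rw [a1, mul_smul_comm, smul_mul_assoc, ← hmv4_inv (hu j _ ((A.e j).map_source hj))
      (hu k _ ((A.e k).map_source hk)) (Atl.tr_mul hk hj) (h3 j k x hj hk)]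
  refine (mk_met A (fun j y =>
    (((Real.exp (m.l j y) * ‖(P j y).det‖) ^ (1 / n : ℝ) : ℝ) : ℂ) • Ring.inverse (P j y))
    (fun j y hy => ?_) (fun j y hy => ?_) (fun j y hy a ha => ?_) hc).imp fun g hg =>
      ⟨fun j y => by rw [hg], fun j y hy => by rw [hg]; exact hmv4_det hn (hu j y hy) _,
        fun j k x hj hk => by rw [hg]; exact hc j k x hj hk⟩
  · have a1 : ContDiffWithinAt ℝ ∞ (fun y => (P j y).det) (A.e j).target y :=
      ((analyticAt_det (P j y)).contDiffAt.restrict_scalars ℝ).comp_contDiffWithinAt y (h1 j y hy)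
    have a2 := (((m.sm j y hy).exp.mul (a1.norm ℂ (det_ne (hu j y hy)))).rpow_const_of_ne
      (p := (1 / n : ℝ)) (h0 j y hy).ne')
    obtain ⟨u, hu'⟩ := hu j y hy
    have a3 : ContDiffAt ℝ ∞ Ring.inverse (P j y) := hu' ▸ contDiffAt_ringInverse ℝ u
    exact (Complex.ofRealCLM.contDiff.contDiffAt.comp_contDiffWithinAt y a2).smul
      (a3.comp_contDiffWithinAt y (h1 j y hy))
  · exact IsSelfAdjoint.smul (Complex.conj_ofReal _) (hmv4_sa (h2 j y hy).1)
  · rw [hmv4_qf]
    exact mul_pos (Real.rpow_pos_of_pos (h0 j y hy) _) (hmv4_pos (h2 j y hy).1 (h2 j y hy).2 ha)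

end Vale.Agent.P272
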