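import Vale.Agent.P272.EstA
import Vale.Agent.P272.F.H.MV3
import Vale.Agent.P272.F.H.MV4

/-! P272 F/H/MV (task). Helper names start with `hmv_`.
Plan. `mv_glue` with `θ = v.toPot.subm ε ρ`. `met_of` first with `m₁ = v.addSm hφ` gives `g₁`; `K = C₁ * g₁.C` with `|levi (m₁.l j) y a| ≤ C₁ ‖a‖^2` (`fam_bound`); `met_of` with `m = (v.addSm hφ).addSm (sm_const (n log K))` gives `g`, `g.Γ = K • g₁.Γ`. `mk_vol` with `ℓ j y = v.l j y + loc φ j y + n log K`; `lv` is checked in the chart `ch x` and moved by `cmp` of `toPot` and of `Γ` (`qf_conj`). `tr`: let `levi (θ.u + loc φ) = qf Γ₀` (`levi_qf`; `‖Γ₀‖ ≤ 4 C` by `polar`, `fam_bound`), `E = star V * Γ * V`, `‖E - 1‖ ≤ 1 / 2`, `V * star V - inverse Γ = V * (1 - inverse E) * star V` has norm `≤ ‖V‖^2 * 2 ‖E - 1‖`, `‖V‖^2 ≤ 2 g.C`; `inverse Γ = (K q)⁻¹ • P` with `q = (exp (φ + l) ‖det P‖)^(1/n)`; `trL_eq`, `rtr_le`, `trL_sub`, `trL_cmul`, `trL_add_const`.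 -/

open Metric Set Filter Topology Complex MeasureTheory
open scoped ContDiff

noncomputable section

namespace Vale.Agent.P272

variable {n : ℕ} {X : Type} [TopologicalSpace X] {A : Atl n X}

theorem hmv_close {Γ V : L n} {C : ℝ} (hC : 1 ≤ C) (lo : ∀ w, ‖w‖ ^ 2 ≤ C * qf Γ w)
    (up : ‖Γ‖ ≤ C) (h : ‖star V * Γ * V - 1‖ ≤ 1 / 2) :
    ‖V * star V - Ring.inverse Γ‖ ≤ 4 * C ^ 3 * ‖star V * Γ * V - 1‖ := by
  obtain ⟨hΓ, hi⟩ := atlb_unit (by linarith) lo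
  have q : ∀ w, |qf Γ (V w) - ‖w‖ ^ 2| ≤ 1 / 2 * ‖w‖ ^ 2 := fun w => by
    rw [← qf_conj, ← qf_one, ← qf_sub, qf_one]
    exact (qf_le _ w).trans (mul_le_mul_of_nonneg_right h (sq_nonneg _))
  have hV : ‖V‖ ≤ 2 * C := by
    refine ContinuousLinearMap.opNorm_le_bound _ (by linarith) fun w => ?_
    refine abs_le_of_sq_le_sq' ?_ (by positivity) |>.2
    have h1 := mul_le_mul_of_nonneg_left (abs_le.1 (q w)).2 (by linarith : 0 ≤ C)
    have h2 := lo (V w)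
    have h3 : C * ‖w‖ ^ 2 ≤ C * C * ‖w‖ ^ 2 :=
      mul_le_mul_of_nonneg_right (le_mul_of_one_le_left (by linarith) hC) (sq_nonneg _)
    have h4 : 0 ≤ C * ‖w‖ ^ 2 := by positivity
    nlinarith
  obtain ⟨hU, hW⟩ := unit_of_lo (V := V) (c := 2 * C) (by linarith) fun w => by
    refine abs_le_of_sq_le_sq' ?_ (by positivity) |>.2
    have h1 := (abs_le.1 (q w)).1
    have h2 := (abs_le.1 ((qf_le Γ (V w)).trans
      (mul_le_mul_of_nonneg_right up (sq_nonneg _)))).2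
    have h3 : C * ‖V w‖ ^ 2 ≤ C * C * ‖V w‖ ^ 2 :=
      mul_le_mul_of_nonneg_right (le_mul_of_one_le_left (by linarith) hC) (sq_nonneg _)
    have h4 : 0 ≤ C * ‖V w‖ ^ 2 := by positivity
    nlinarith
  have e : V * star V - Ring.inverse Γ =
      Ring.inverse Γ * (star (Ring.inverse V) * ((star V * Γ * V - 1) * star V)) := by
    have e1 : star (Ring.inverse V) * star V = 1 := by
      rw [← star_mul, Ring.mul_inverse_cancel _ hU, star_one]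
    have e2 := Ring.inverse_mul_cancel _ hΓ
    rw [sub_mul, one_mul, mul_sub, e1, mul_sub, mul_one, mul_assoc (star V), mul_assoc (star V),
      ← mul_assoc (star (Ring.inverse V)), e1, one_mul, mul_assoc Γ, ← mul_assoc (Ring.inverse Γ), e2,
      one_mul]
  rw [e]
  have ns : ∀ T : L n, ‖star T‖ = ‖T‖ := fun T => norm_star T
  have n1 := norm_mul_le (star V * Γ * V - 1) (star V)
  have n2 := norm_mul_le (star (Ring.inverse V)) ((star V * Γ * V - 1) * star V)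
  rw [ns] at n1 n2
  have n3 := n1.trans (mul_le_mul_of_nonneg_left hV (norm_nonneg _))
  have n4 := n2.trans (mul_le_mul hW n3 (norm_nonneg _) (by linarith))
  refine (norm_mul_le _ _).trans ((mul_le_mul hi n4 (norm_nonneg _) (by linarith)).trans_eq ?_)
  ring

theorem hmv_pow (hn : 1 ≤ n) {K : ℝ} (hK : 0 < K) (l : ℝ) {d : ℝ} (hd : 0 ≤ d) :
    (Real.exp (l + n * Real.log K) * d) ^ (1 / n : ℝ) = K * (Real.exp l * d) ^ (1 / n : ℝ) := by
  rw [Real.exp_add, Real.exp_nat_mul, Real.exp_log hK, mul_comm (Real.exp l), mul_assoc,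
    Real.mul_rpow (by positivity) (by positivity), one_div,
    Real.pow_rpow_inv_natCast hK.le (by omega)]

theorem hmv_tr {Γ Γ₀ P V : L n} {C C₂ K q : ℝ} (hC : 1 ≤ C) (lo : ∀ w, ‖w‖ ^ 2 ≤ C * qf Γ w)
    (up : ‖Γ‖ ≤ C) (h : ‖star V * Γ * V - 1‖ ≤ 1 / 2) (hK : 0 < K) (hq : 0 < q) (hP : IsUnit P)
    (e : Γ = ((K * q : ℝ) : ℂ) • Ring.inverse P) (h0 : ‖Γ₀‖ ≤ C₂) (h1 : rtr (Γ₀ * P) ≤ n * q) :
    rtr (Γ₀ * (V * star V)) ≤ n / K + n * (C₂ * (4 * C ^ 3)) * ‖star V * Γ * V - 1‖ := by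
  have h2 := hmv_close hC lo up h
  have hΓ := (atlb_unit (by linarith) lo).1
  have e1 : Ring.inverse Γ = (((K * q)⁻¹ : ℝ) : ℂ) • P := by
    have e2 : ((((K * q)⁻¹ : ℝ) : ℂ) • P) * Γ = 1 := by
      rw [e, smul_mul_smul_comm, Ring.mul_inverse_cancel _ hP, ← Complex.ofReal_mul,
        inv_mul_cancel₀ (by positivity), Complex.ofReal_one, one_smul ℂ (1 : L n)]
    rw [← one_mul (Ring.inverse Γ), ← e2, mul_assoc, Ring.mul_inverse_cancel _ hΓ, mul_one]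
  have h3 := (abs_le.1 (rtr_le (Γ₀ * (V * star V - Ring.inverse Γ)))).2
  have h4 := (norm_mul_le Γ₀ (V * star V - Ring.inverse Γ)).trans
    (mul_le_mul h0 h2 (norm_nonneg _) ((norm_nonneg _).trans h0))
  have h5 := mul_le_mul_of_nonneg_left h4 (Nat.cast_nonneg (α := ℝ) n)
  have h6 : rtr (Γ₀ * Ring.inverse Γ) ≤ n / K := by
    rw [e1, mul_smul_comm, rtr_smul]
    refine (mul_le_mul_of_nonneg_left h1 (by positivity)).trans_eq ?_
    field_simp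
  rw [mul_sub, rtr_sub, ← mul_sub] at h3
  linarith

theorem exists_mv [T2Space X] [CompactSpace X] (hn : 1 ≤ n) (ρ : A.Pot) (v : A.LV) (ε : ℝ)
    {φ : X → ℝ} (h : Atl.Sup (fun j y => v.l j y - ε * ρ.u j y) (Atl.maF v 0) φ) :
    ∃ (K C : ℝ) (g : Met A) (w : Vol g), MV ρ v ε φ K C g w := by
  obtain ⟨P, p1, p2, p3, p4⟩ := mv_glue hn (v.toPot.subm ε ρ) v h
  obtain ⟨g₁, e1, -, -⟩ := met_of hn (v.addSm h.1) p1 p2 p3
  obtain ⟨C₁, c1, hC₁⟩ := Atl.fam_bound (v.addSm h.1).sm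
  obtain ⟨C₂, c2, hC₂⟩ := Atl.fam_bound ((v.toPot.subm ε ρ).addSm h.1).sm
  obtain ⟨K, hK⟩ : ∃ K, K = C₁ * g₁.C := ⟨_, rfl⟩
  have K1 : 1 ≤ K := hK ▸ one_le_mul_of_one_le_of_one_le c1 g₁.one
  have K0 : 0 < K := by linarith
  obtain ⟨m, hm⟩ : ∃ m : A.LV, ∀ j, m.l j = fun y => (v.addSm h.1).l j y + n * Real.log K :=
    ⟨(v.addSm h.1).addSm (Atl.sm_const (n * Real.log K)), fun _ => rfl⟩
  obtain ⟨g, e2, e3, e4⟩ := met_of hn m p1 p2 p3
  have e5 : ∀ j y, g.Γ j y = ((K * (Real.exp ((v.addSm h.1).l j y) * ‖(P j y).det‖) ^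
      (1 / n : ℝ) : ℝ) : ℂ) • Ring.inverse (P j y) := fun j y => by
    rw [e2, hm, hmv_pow hn K0 _ (norm_nonneg _)]
  obtain ⟨w, hw⟩ := mk_vol g m.l m.sm (fun j y hy a => by
    obtain ⟨x, hx, rfl⟩ : ∃ x ∈ (A.e j).source, A.e j x = y :=
      ⟨_, (A.e j).map_target hy, (A.e j).right_inv hy⟩
    obtain ⟨s1, s2⟩ := A.ch_in x
    have s4 : ‖A.e (A.ch x) x‖ ≤ 4 := by linarith
    rw [kpot_lv m s1 hx, e4 _ _ x s1 hx, qf_conj, hm, levi_add_const, e5, maina_qf, mul_assoc,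
      ← maina_qf _ (Ring.inverse _), ← e1, hK, mul_assoc]
    exact (abs_le.1 ((hC₁ _ _ s4).2.2.2 _)).2.trans
      (mul_le_mul_of_nonneg_left (g₁.lo _ _ _ s4) (by linarith))) (fun j y hy => (e3 j y hy).le)
    m.cmp
  have g1 := g.one
  have n1 : (1 : ℝ) ≤ n := by exact_mod_cast hn
  refine ⟨K, n * (4 * C₂ * (4 * g.C ^ 3)), g, w, K1, ?_, h.1, fun j y => ?_, fun j y V hy hV => ?_⟩
  · refine one_le_mul_of_one_le_of_one_le n1 (one_le_mul_of_one_le_of_one_le (by linarith) ?_)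
    linarith [one_le_pow₀ (n := 3) g1]
  · rw [hw, hm]
    rfl
  · have hy' := A.tgt j (mem_closedBall_zero_iff.2 hy)
    obtain ⟨x, hx, rfl⟩ : ∃ x ∈ (A.e j).source, A.e j x = y :=
      ⟨_, (A.e j).map_target hy', (A.e j).right_inv hy'⟩
    obtain ⟨Γ₀, sa, hΓ₀⟩ := levi_qf (((v.toPot.subm ε ρ).addSm h.1).at2 hx)
    have e6 : trL (w.ℓ j) (A.e j x) V - ε * trL (ρ.u j) (A.e j x) V =
        trL (((v.toPot.subm ε ρ).addSm h.1).u j) (A.e j x) V := by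
      rw [hw, hm, trL_add_const, ← trL_cmul,
        ← trL_sub (u := (v.addSm h.1).l j) ((v.addSm h.1).toPot.at2 hx)
          (contDiffAt_const.mul (ρ.at2 hx))]
      congr 1
      funext y
      show v.l j y + A.loc φ j y - ε * ρ.u j y = v.l j y - ε * ρ.u j y + A.loc φ j y
      ring
    have h1 := p4 j x Γ₀ hx hΓ₀
    have e7 : (v.addSm h.1).l j (A.e j x) = φ x + v.l j (A.e j x) := by
      show v.l j (A.e j x) + A.loc φ j (A.e j x) = _
      rw [pv_loc φ hx, add_comm]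
    rw [e6, trL_eq hΓ₀]
    refine hmv_tr g.one (fun a => g.lo j _ a hy) (g.up j _ hy) hV K0 ?_ (pos_unit (p2 j _ hy').2)
      (e5 j _) (esta_norm sa (by linarith) fun a => ?_) (e7 ▸ h1)
    · exact Real.rpow_pos_of_pos (mul_pos (Real.exp_pos _)
        (norm_pos_iff.2 (mainb_ne (p2 j _ hy').2))) _
    · rw [← hΓ₀]
      exact (hC₂ j _ hy).2.2.2 a

end Vale.Agent.P272
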