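import Vale.Agent.P272.F.H.Sp
import Vale.Agent.P272.Brody

/-! P272 F/H/Near (task). Helper names start with `hnear_`.
Plan. `exists_met`: `mk_met` with `Γ j y = ∑ k, χ k (symm y) • (star (tr k j x) * tr k j x)`, `χ k` from `exists_cut A k 1 2` (`tr_cocycle`, `tr_analytic`; a term vanishes near `y` when `¬ In k 2`); any other proof is fine. `exists_near`: `brody` gives `sp ≤ 16 C₁ ≤ (4 C₁)^2` on `‖z‖ ≤ 1 / 4`; `r₀ = 1 / (16 C C₁)`, `Met.loc` from `0`; `Pot.sp_le`. -/

open Metric Set Filter Topology Complex MeasureTheory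
open scoped ContDiff

noncomputable section

namespace Vale.Agent.P272

variable {n : ℕ} {X : Type} [TopologicalSpace X] {A : Atl n X}

variable [T2Space X]

omit [T2Space X] in
theorem hnear_sm {χ : X → ℝ} (h : A.Sm χ) {j k : Fin A.N}
    (h0 : ∀ x, ¬ A.In k 2 x → χ =ᶠ[𝓝 x] 0) : ContDiffOn ℝ ∞ (fun y => χ ((A.e j).symm y) •
      (star (A.tr k j ((A.e j).symm y)) * A.tr k j ((A.e j).symm y))) (A.e j).target := by
  intro y hy
  have hx : (A.e j).symm y ∈ (A.e j).source := (A.e j).map_target hy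
  have hn : ∀ᶠ y' in 𝓝 y, y' ∈ (A.e j).target := (A.e j).open_target.mem_nhds hy
  refine ContDiffAt.contDiffWithinAt ?_
  by_cases hk : A.In k 2 ((A.e j).symm y)
  · have h1 := (Atl.tr_analytic hk.1 hx).fderiv
    rw [(A.e j).right_inv hy] at h1
    have h2 : ContDiffAt ℝ ∞ (fun y => A.tr k j ((A.e j).symm y)) y := by
      refine ((h1.contDiffAt (n := ∞)).restrict_scalars ℝ).congr_of_eventuallyEq ?_
      filter_upwards [hn] with y' hy'
      unfold Atl.tr
      rw [(A.e j).right_inv hy']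
    have h3 : ContDiffAt ℝ ∞ (fun y => star (A.tr k j ((A.e j).symm y))) y :=
      (starL' ℝ : L n ≃L[ℝ] L n).contDiff.contDiffAt.comp y h2
    exact ((h j y hy).contDiffAt hn).smul (h3.mul h2)
  · refine (contDiffAt_const (c := (0 : L n))).congr_of_eventuallyEq ?_
    filter_upwards [((A.e j).continuousAt_symm hy).eventually (h0 _ hk)] with y' hy'
    rw [hy', Pi.zero_apply]
    ext a
    simp

theorem hnear_c (c : ℝ) (T : L n) : c • T = (c : ℂ) • T :=
  ContinuousLinearMap.ext fun a => (Complex.coe_smul c (T a)).symm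

theorem hnear_sa {ι : Type} [Fintype ι] (c : ι → ℝ) (T : ι → L n) :
    IsSelfAdjoint (∑ k, c k • (star (T k) * T k)) := by
  refine isSelfAdjoint_sum (R := L n) _ fun k _ => ?_
  have h := (starL' ℝ : L n ≃L[ℝ] L n).map_smul (c k) (star (T k) * T k)
  have h2 : star (star (T k) * T k) = star (T k) * T k := IsSelfAdjoint.star_mul_self (T k)
  exact h.trans (congrArg (fun S : L n => c k • S) h2)

theorem hnear_qf {ι : Type} [Fintype ι] (c : ι → ℝ) (T : ι → L n) (a : E n) :
    qf (∑ k, c k • (star (T k) * T k)) a = ∑ k, c k * ‖T k a‖ ^ 2 := by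
  have h : ∀ k, qf (star (T k) * T k) a = ‖T k a‖ ^ 2 := fun k => by
    have := qf_conj 1 (T k) a
    rwa [mul_one, qf_one] at this
  simp only [← h]
  unfold qf
  rw [sum_apply, inner_sum, Complex.re_sum]
  refine Finset.sum_congr rfl fun k _ => ?_
  rw [smul_apply, ← Complex.coe_smul, inner_smul_right, Complex.re_ofReal_mul]

theorem exists_met (A : Atl n X) : Nonempty (Met A) := by
  choose χ sm nn one zero using fun k : Fin A.N =>
    exists_cut A k (r := 1) (R := 2) one_pos one_lt_two (by norm_num)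
  refine (mk_met A (fun j y => ∑ k, χ k ((A.e j).symm y) •
    (star (A.tr k j ((A.e j).symm y)) * A.tr k j ((A.e j).symm y)))
    (fun j => ContDiffOn.sum fun k _ => hnear_sm (sm k) (zero k))
    (fun j y _ => hnear_sa _ _) (fun j y hy a ha => ?_)
    (fun j k x hj hk => ?_)).nonempty
  · rw [hnear_qf]
    obtain ⟨k, hk, hk1⟩ := A.cov ((A.e j).symm y)
    refine Finset.sum_pos' (fun i _ => mul_nonneg (nn i _).1 (sq_nonneg _))
      ⟨k, Finset.mem_univ _, ?_⟩
    rw [one k _ ⟨hk, hk1.le⟩, one_mul]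
    refine pow_pos (norm_pos_iff.2 fun h => ha ?_) 2
    have h1 := congrArg (fun T : L n => T a) (Atl.tr_mul ((A.e j).map_target hy) hk)
    simpa [h] using h1.symm
  · simp only [(A.e j).left_inv hj, (A.e k).left_inv hk, Finset.mul_sum, Finset.sum_mul]
    refine Finset.sum_congr rfl fun i _ => ?_
    rw [hnear_c, hnear_c]
    by_cases hi : A.In i 2 x
    · rw [← Atl.tr_cocycle hi.1 hj hk, star_mul, mul_smul_comm, smul_mul_assoc]
      simp only [mul_assoc]
    · have : χ i x = 0 := (zero i x hi).self_of_nhds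
      have h0 : ∀ T : L n, ((0 : ℝ) : ℂ) • T = 0 := fun T =>
        ContinuousLinearMap.ext fun a => by simp
      rw [this, h0, h0, mul_zero, zero_mul]

theorem exists_near [CompactSpace X] (hA : A.Hyp) (θ ρ : A.Pot) :
    ∃ r₀ C₀ : ℝ, A.Near r₀ ∧ Atl.NB θ ρ C₀ := by
  obtain ⟨g⟩ := exists_met A
  obtain ⟨C₁, h1, hB⟩ := g.brody hA
  obtain ⟨a, ha, hθ⟩ := θ.sp_le g
  obtain ⟨b, hb, hρ⟩ := ρ.sp_le g
  have hC := g.one
  have key : ∀ f : ℂ → X, (∀ z ∈ ball (0 : ℂ) (1 / 2), A.HolAt f z) → ∀ z, ‖z‖ ≤ 1 / 4 →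
      g.sp f z ≤ 16 * C₁ := fun f hf z hz => by
    have := hB f z (1 / 4) (by norm_num) fun w hw => hf w (by
      rw [mem_ball_zero_iff]
      rw [mem_ball, dist_eq_norm] at hw
      have := norm_add_le (w - z) z
      rw [sub_add_cancel] at this
      linarith)
    calc _ ≤ _ := this
      _ = _ := by ring
  have hp : 1 ≤ g.C * C₁ := one_le_mul_of_one_le_of_one_le hC h1
  have hr : 1 / (16 * (g.C * C₁)) ≤ 1 / 16 :=
    one_div_le_one_div_of_le (by norm_num) (by linarith)
  refine ⟨1 / (16 * (g.C * C₁)), (a + b) * (16 * C₁), ⟨by positivity, by linarith, ?_⟩,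
    by nlinarith, fun f hf z hz => ⟨(hθ f z).trans ?_, (hρ f z).trans ?_⟩⟩
  · intro j f hf hj z hz
    have hs : g.C * (4 * C₁) * ‖z - 0‖ ≤ 1 / 2 := by
      rw [sub_zero]
      calc _ ≤ g.C * (4 * C₁) * (2 * (1 / (16 * (g.C * C₁)))) := by gcongr
        _ = 1 / 2 := by field_simp; ring
    obtain ⟨h2, h3⟩ := g.loc (j := j) (f := f) (z₁ := 0) (z₂ := z) (Λ := 4 * C₁) (by positivity)
      (fun w hw => by
        have hw' : ‖w‖ ≤ 1 / 4 := by
          have := (convex_closedBall (0 : ℂ) (1 / 4)).segment_subset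
            (mem_closedBall_self (by norm_num)) (mem_closedBall_zero_iff.2 (by linarith : ‖z‖ ≤ _)) hw
          exact mem_closedBall_zero_iff.1 this
        exact ⟨hf w (mem_ball_zero_iff.2 (by linarith)), (key f hf w hw').trans (by nlinarith)⟩)
      ⟨hj.1, hj.2.trans (by norm_num)⟩ (by linarith)
    refine ⟨h2.1, ?_⟩
    have := norm_add_le (A.e j (f z) - A.e j (f 0)) (A.e j (f 0))
    rw [sub_add_cancel] at this
    linarith [hj.2]
  · have := key f hf z hz
    nlinarith
  · have := key f hf z hz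
    nlinarith

end Vale.Agent.P272
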