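import Vale.Agent.P272.F.H.Step
import Vale.Agent.P272.F.H.MV
import Vale.Agent.P272.F.H.Near
import Vale.Agent.P272.F.G.Game
import Vale.Agent.P272.Core

/-! P272 F/H/Main (task). Helper names start with `hmain_`.
Plan. `exists_near` with `θ = v.toPot`, `aF_bd` gives `H`, `stepH` gives `C₃`. Choose `B'` with `r₀^2 exp ((B' - C₃) / n) / (4 n) > 8 H`. Given `φ`, let `x` be a minimum (`pv_cont`), `j = ch x`; `exists_mv`, `brody`, `stepH` give `N`, `c`; `gameC_bound (Fin 4) C₁ (2 H)` with `β = r₀^2 (1 + η / 2) exp ((-φ x - C₃) / n) / (n K)`, `τ = K / 4` gives `Λm`; take `ψ`, `b` for `1 / (c Λm^4)`. The game is a copy of `core_game` (file Core) with `a = aF + H`, `J = Jt`; `core_init`, `Pot.sp_le` (so `T = 0`). So `β τ ≤ 8 H`, hence `-φ x ≤ B'`. -/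

open Metric Set Filter Topology Complex MeasureTheory
open scoped ContDiff

noncomputable section

namespace Vale.Agent.P272

variable {n : ℕ} {X : Type} [TopologicalSpace X] {A : Atl n X}

theorem hmain_fin {r₀ η s K H m : ℝ} (hr : 0 < r₀) (hη : 0 ≤ η) (hK : 0 < K) (hm : 0 < m)
    (h : r₀ ^ 2 * (1 + η / 2) * Real.exp (s / m) / (m * K) * (K / 4) ≤ 4 * (2 * H)) :
    s ≤ m * (32 * m * H / r₀ ^ 2) := by
  have h1 : r₀ ^ 2 * (1 + η / 2) * Real.exp (s / m) / (m * K) * (K / 4) =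
      r₀ ^ 2 * (1 + η / 2) * Real.exp (s / m) / (4 * m) := by
    field_simp
  rw [h1, div_le_iff₀ (by positivity)] at h
  have h2 : s / m ≤ Real.exp (s / m) := by linarith [Real.add_one_le_exp (s / m)]
  have h3 : 0 < r₀ ^ 2 := by positivity
  have h4 : r₀ ^ 2 * Real.exp (s / m) ≤ r₀ ^ 2 * (1 + η / 2) * Real.exp (s / m) := by
    have h5 : 0 ≤ r₀ ^ 2 * (η / 2) * Real.exp (s / m) := by positivity
    linarith
  have h6 : s / m ≤ 32 * m * H / r₀ ^ 2 := by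
    rw [le_div_iff₀ h3]
    have h7 := mul_le_mul_of_nonneg_left h2 h3.le
    linarith
  rwa [div_le_iff₀' hm] at h6

theorem hmain_cap {c Λ Λm : ℝ} (hc : 1 ≤ c) (h0 : 0 ≤ Λ) (h1 : 1 ≤ Λm) (h : Λ ≤ Λm) :
    1 / (c * Λm ^ 4) * c * Λ ^ 4 ≤ 1 := by
  have h2 : 1 / (c * Λm ^ 4) * c * Λ ^ 4 = Λ ^ 4 / Λm ^ 4 := by
    field_simp
  rw [h2, div_le_one (by positivity)]
  exact pow_le_pow_left₀ h0 h 4

theorem vsl [T2Space X] [CompactSpace X] (hn : 1 ≤ n) (hA : A.Hyp) (ρ : A.Pot) (hρ : ρ.Pos)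
    (v : A.LV) {ε η B : ℝ} (hε : 0 ≤ ε) (hη : 0 ≤ η)
    (h : ∀ β, 0 < β → ∃ ψ b, Atl.Bar ρ v ε η B β ψ b) :
    ∃ B' : ℝ, ∀ φ, Atl.Sup (fun j y => v.l j y - ε * η / (2 + η) * ρ.u j y) (Atl.maF v 0) φ →
      ∀ x, -B' ≤ φ x := by
  obtain ⟨r₀, C₀, hN, hNB⟩ := exists_near hA v.toPot ρ
  obtain ⟨H, -, hH⟩ := aF_bd ρ B
  obtain ⟨C₃, hst⟩ := stepH hn hρ v B hN hNB hε hη
  have hr₀ := hN.1
  have hn0 : (0 : ℝ) < n := by exact_mod_cast hn
  refine ⟨C₃ + n * (32 * n * H / r₀ ^ 2), fun φ hφ y => ?_⟩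
  obtain ⟨x, -, hx⟩ := isCompact_univ.exists_isMinOn ⟨y, mem_univ y⟩ (pv_cont hφ.1).continuousOn
  have hmin : ∀ y, φ x ≤ φ y := fun y => hx (mem_univ y)
  obtain ⟨K, C, g, w, hM⟩ := exists_mv hn ρ v (ε * η / (2 + η)) hφ
  obtain ⟨C₁, hB⟩ := g.brody hA
  obtain ⟨N, c, hN2, hc, hs⟩ := hst φ K C C₁ g w hM hB
  have hK : 0 < K := lt_of_lt_of_le one_pos hM.K1
  have hβ0 : 0 < r₀ ^ 2 * (1 + η / 2) * Real.exp ((-φ x - C₃) / n) / (n * K) := by positivity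
  obtain ⟨Λm, hΛ1, hG⟩ := gameC_bound (Fin 4) C₁ (2 * H) hβ0 (τ := K / 4) (by positivity)
    (C := N) (by omega)
  obtain ⟨ψ, b, hbar⟩ := h (1 / (c * Λm ^ 4)) (by positivity)
  have hin : A.In (A.ch x) 1 x := Atl.in_ch x le_rfl
  have key := hG (ℝ × (ℂ × E n → X))
    { rad := fun σ => σ.1
      a := fun σ => aF ρ b (A.ch x) r₀ (ctr σ.2) + H
      J := fun σ => Jt w ρ (ε * η / (2 + η)) σ.2 σ.1
      X := fun σ z => g.sp (ctr σ.2) z
      T := fun σ ξ => A.Bs σ.2 (closedBall 0 σ.1) ∧ σ.2 (0, 0) = x ∧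
        ∀ z, ‖z‖ = σ.1 → ‖g.Gr σ.2 z - 1‖ ≤ ξ
      mono := fun σ ξ ξ' h hT => ⟨hT.1, hT.2.1, fun z hz => (hT.2.2 z hz).trans h⟩
      ha := fun σ ξ hT hr => by
        have h1 := hH b (A.ch x) r₀ (ctr σ.2) hbar.bd hN (fun z hz => (hT.1 z
          (ball_subset_closedBall.trans (closedBall_subset_closedBall hr) hz)).1.ctr.holAt)
          (by
            have h2 : ctr σ.2 0 = x := hT.2.1
            rw [h2]
            exact hin)
        rw [abs_le] at h1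
        constructor <;> linarith [h1.1, h1.2]
      hX := fun σ ξ z hT hz => hB.2 _ z _ (sub_pos.2 hz) fun u hu => by
        refine (hT.1 u ?_).1.ctr.holAt
        rw [mem_ball, dist_eq_norm] at hu
        rw [mem_closedBall_zero_iff]
        linarith [norm_sub_norm_le u z]
      init := by
        obtain ⟨F, h1, h2, h3, h4, h5⟩ := core_init w hin
        refine ⟨(1, F), ⟨h1, h2, fun z _ => by simp [h3]⟩, rfl, ?_, h5⟩
        obtain ⟨D, -, hD⟩ := ρ.sp_le g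
        have h6 : ∀ z, ρ.sp (ctr F) z = 0 := fun z => by
          have h7 := hD (ctr F) z
          rw [h5, mul_zero] at h7
          exact abs_nonpos_iff.1 h7
        simp [Jt, Atl.Pot.T, grn, h4, h6]
      step := fun Λ t σ hΛ hΛm ht htΛ hr hr1 hT hsp => by
        have h2 : (2 : ℝ) ≤ Λ := le_trans (by exact_mod_cast hN2) hΛ
        have h3 : Λ ≤ Λ ^ N := le_self_pow₀ (by linarith) (by omega)
        have h4 : t ≤ 1 / 2 := by nlinarith
        have h5 : t ^ 24 ≤ t := pow_le_of_le_one ht.le (by linarith) (by norm_num)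
        obtain ⟨e1, e0⟩ := hs _ ψ b σ.2 σ.1 Λ t (A.ch x) (by positivity) hbar
          (hmain_cap hc (by linarith) hΛ1 hΛm) hΛ ht htΛ hr
          ⟨by linarith, hr1, by linarith, by positivity, by linarith, hT.1, hsp, hT.2.2⟩
          (by rw [hT.2.1]; exact hmin) (by rw [hT.2.1]; exact hin)
        refine ⟨e1, fun γ hγ _ => ?_⟩
        obtain ⟨F', r', e2, e3, e4, e5, e6⟩ := e0 γ hγ
        rw [hT.2.1] at e4 e5
        have hc4 : (Fintype.card (Fin 4) : ℝ) = 4 := by simp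
        rw [hc4]
        refine ⟨fun k => (r', F' k), r', e2, e3, fun k => ⟨rfl,
          ⟨(e4 k).1, (e4 k).2.1, (e4 k).2.2.1⟩, (e4 k).2.2.2⟩, ?_, e6⟩
        simp only [Fin.sum_univ_four] at e5 ⊢
        linarith }
  have h8 := hmain_fin hr₀ hη hK hn0 key
  linarith [hmin y]

end Vale.Agent.P272
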