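import Vale.Agent.P272.F.H.Sp
import Vale.Agent.P272.JEst

/-! P272 F/H/Close (task). Helper names start with `hclose_`.
Plan. `close0`: `Jf W r' = Jf F r'` (`c0`, `circleAverage_congr_sphere`), `T (ctr W) r' = T (ctr F) r'` (`grn_congr`, `sp_congr`), `J_rad` with `η' = P t^24` (`tolF`, `1 ≤ P`), `T r = T r' + grn _ r' r` (`grn_split`, `grn_le`, `sp_le`, `sp_cont`). `close1`: `jf (sh W u) 0 = jf W 0` (`sh_cen`); on the circle `jf_gram` in the chart `ch (F (z, 0))` for both tubes, `lip`, `ld`, `log_det`, `cl`, `tol`, `tolF`; for `T`: `sp_eq`, `levi_lip`, `cl`, `grn_mono`, `grn_const`. `Jt_up`: `J_up`, `grn_le`, `sp_le`. -/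

open Metric Set Filter Topology Complex MeasureTheory
open scoped ContDiff

noncomputable section

namespace Vale.Agent.P272

variable {n : ℕ} {X : Type} [TopologicalSpace X] {A : Atl n X}

variable [T2Space X] {g : Met A} (w : Vol g) (ρ : A.Pot) {ε : ℝ}

theorem close0 (hε : 0 ≤ ε) : ∃ C : ℝ, 1 ≤ C ∧ ∀ (F W : ℂ × E n → X) (r Λ t P r' : ℝ),
    g.Gd F r Λ (t ^ 24) → 3 / 4 ≤ r → 0 < t → g.DS F W r Λ t P → C * P ^ 3 * t ≤ 1 →
    r - 4 * t ^ 24 ≤ r' → r' < r - 3 * t ^ 24 →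
    Jt w ρ ε F r - C * P ^ 2 * t ^ 24 ≤ Jt w ρ ε W r' := by
  obtain ⟨CJ, hCJ, hJ⟩ := w.J_rad
  obtain ⟨S, hS, hsp⟩ := ρ.sp_le g
  have hg := g.one
  have p0 : 0 ≤ 8 * ε * S := by positivity
  refine ⟨5 * CJ + 4 * g.C + 8 * ε * S, by linarith,
    fun F W r Λ t P r' hd hr ht hD hC h1 h2 => ?_⟩
  have hP : 1 ≤ P := hd.one.trans hD.ΛP
  have hΛ : 0 ≤ Λ := zero_le_one.trans hd.one
  have P3 : P ≤ P ^ 3 := le_self_pow₀ hP (by norm_num)
  have P2 : P ≤ P ^ 2 := le_self_pow₀ hP (by norm_num)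
  have x0 : 0 < P ^ 3 * t := by positivity
  have x1 : (5 + 4 * g.C) * (P ^ 3 * t) ≤ 1 := by nlinarith
  have t1 : t ≤ P ^ 3 * t := by nlinarith
  have t2 : t ^ 24 ≤ t := pow_le_of_le_one ht.le (by nlinarith) (by norm_num)
  have t0 : 0 < t ^ 24 := by positivity
  have x2 : P * t ^ 24 ≤ P ^ 3 * t := mul_le_mul P3 t2 t0.le (by positivity)
  have x3 : Λ * (r - r') ≤ P * (4 * t ^ 24) := mul_le_mul hD.ΛP (by linarith) (by linarith)
    (by linarith)
  have r0 : 0 < r' := by nlinarith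
  have rr : r' ≤ r := by linarith
  have e1 := hJ F r Λ _ r' (P * t ^ 24) hd r0 rr (by nlinarith) (by nlinarith) (by nlinarith)
    fun z hz => hD.tolF z (by linarith) (by linarith)
  have jf : ∀ z, ‖z‖ ≤ r' → w.jf W z = w.jf F z := fun z hz => by
    obtain ⟨a, b⟩ := hD.c0 z (by linarith)
    rw [Vol.jf, Vol.jf, a, b]
  have e2 : w.Jf W r' = w.Jf F r' := by
    rw [Vol.Jf, Vol.Jf, jf 0 (by simpa using r0.le), Real.circleAverage_congr_sphere fun z hz =>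
      jf z (by rw [mem_sphere_zero_iff_norm.1 hz, abs_of_pos r0])]
  have e3 : ρ.T (ctr W) r' = ρ.T (ctr F) r' := grn_congr fun z hz => by
    rw [ρ.sp_congr (f := ctr W) (f' := ctr F)
      ((isOpen_ball.eventually_mem (mem_ball_zero_iff.2 hz)).mono fun z' hz' =>
        (hD.c0 z' (by linarith [mem_ball_zero_iff.1 hz'])).1)]
  have c4 : ContinuousOn (fun z => 4 * ρ.sp (ctr F) z) (closedBall 0 r) := fun z hz =>
    (continuousAt_const.mul (ρ.sp_cont (hd.bs z hz).1.ctr)).continuousWithinAt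
  have e4 := grn_split le_rfl r0.le rr c4
  have e5 := grn_le (c := 4 * (S * P ^ 2)) r0.le rr c4 fun z hz => by
    have a := (abs_le.1 (hsp (ctr F) z)).2
    have b := mul_le_mul_of_nonneg_left ((hd.sp z hz.le).trans
      (pow_le_pow_left₀ hΛ hD.ΛP 2)) (zero_le_one.trans hS)
    linarith
  have e6 : r ^ 2 - r' ^ 2 ≤ 8 * t ^ 24 := by nlinarith [hd.le]
  have e7 := mul_le_mul_of_nonneg_left e6 (show 0 ≤ S * P ^ 2 by positivity)
  have e8 := mul_le_mul_of_nonneg_left (show grn (fun z => 4 * ρ.sp (ctr F) z) r' r ≤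
    S * P ^ 2 * (8 * t ^ 24) by linarith) hε
  have e9 := mul_le_mul_of_nonneg_left (show P * t ^ 24 + Λ * (r - r') ≤ 5 * (P ^ 2 * t ^ 24) by
    nlinarith) (zero_le_one.trans hCJ)
  have e10 : 0 ≤ g.C * (P ^ 2 * t ^ 24) := by positivity
  rw [Jt, Jt, e2, e3, Atl.Pot.T, Atl.Pot.T, e4]
  nlinarith

theorem close1 (hε : 0 ≤ ε) : ∃ C : ℝ, 1 ≤ C ∧ ∀ (F W : ℂ × E n → X) (r Λ t P r' : ℝ),
    g.Gd F r Λ (t ^ 24) → 3 / 4 ≤ r → 0 < t → g.DS F W r Λ t P → C * P ^ 3 * t ≤ 1 →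
    r - 4 * t ^ 24 ≤ r' → r' < r - 3 * t ^ 24 → ∀ u, ‖u‖ ≤ 2 * t ^ 8 →
    Jt w ρ ε W r' - 1 / 2 ≤ Jt w ρ ε (sh W u) r' := by
  obtain ⟨C₀, hC₀, hld⟩ := log_det n
  obtain ⟨L, hL, hlip⟩ := ρ.levi_lip
  have hg := g.one
  have hw := w.one
  have p0 : 0 ≤ 32 * ε * L := by positivity
  refine ⟨4 * (w.C + g.C + C₀) + 32 * ε * L, by linarith,
    fun F W r Λ t P r' hd hr ht hD hC h1 h2 u hu => ?_⟩
  have hP : 1 ≤ P := hd.one.trans hD.ΛP
  have P2 : 1 ≤ P ^ 2 := one_le_pow₀ hP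
  have x0 : 0 < P ^ 3 * t := by positivity
  have x1 : 12 * (P ^ 3 * t) ≤ 1 := by nlinarith
  have t1 : t ≤ P ^ 3 * t := le_mul_of_one_le_left ht.le (one_le_pow₀ hP)
  have t2 : t ^ 24 ≤ t := pow_le_of_le_one ht.le (by linarith) (by norm_num)
  have t8 : t ^ 8 ≤ t := pow_le_of_le_one ht.le (by linarith) (by norm_num)
  have u0 : ‖(0 : E n)‖ ≤ 2 * t ^ 8 := by rw [norm_zero]; positivity
  obtain ⟨s, hs⟩ : ∃ s, s = P * t ^ 8 := ⟨_, rfl⟩
  have s0 : 0 ≤ s := by rw [hs]; positivity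
  have s1 : P ^ 2 * s ≤ P ^ 3 * t := by
    rw [hs, ← mul_assoc, ← pow_succ]
    exact mul_le_mul_of_nonneg_left t8 (by positivity)
  have s2 : s ≤ P ^ 3 * t := (le_mul_of_one_le_left s0 P2).trans s1
  have r0 : 0 < r' := by linarith
  have r1 : r' ≤ 1 := by linarith [hd.le, pow_pos ht 24]
  have bs : ∀ {u}, ‖u‖ ≤ 2 * t ^ 8 → A.Bs (sh W u) (closedBall 0 r') := fun hu =>
    (hD.cr _ hu).bs.mono (closedBall_subset_ball h2)
  have yy : ∀ z, ‖z‖ ≤ r' → ‖A.e (A.ch (F (z, 0))) (sh W u (z, 0)) -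
      A.e (A.ch (F (z, 0))) (sh W 0 (z, 0))‖ ≤ 2 * s := fun z hz => by
    have a := (hD.cl u z hu (by linarith)).2.1
    have b := (hD.cl 0 z u0 (by linarith)).2.1
    rw [← hs] at a b
    rw [norm_sub_rev] at b
    linarith [norm_sub_le_norm_sub_add_norm_sub (A.e (A.ch (F (z, 0))) (sh W u (z, 0)))
      (A.e (A.ch (F (z, 0))) (F (z, 0))) (A.e (A.ch (F (z, 0))) (sh W 0 (z, 0)))]
  have e1 : Real.circleAverage (w.jf (sh W u)) 0 r' ≤
      Real.circleAverage (w.jf (sh W 0)) 0 r' + 2 * (w.C + g.C + C₀) * s := by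
    rw [← Real.circleAverage_const (2 * (w.C + g.C + C₀) * s) 0 r', ← Real.circleAverage_fun_add
      (w.jf_int r0.le (bs u0)) (circleIntegrable_const _ _ _)]
    refine Real.circleAverage_mono (w.jf_int r0.le (bs hu))
      ((w.jf_int r0.le (bs u0)).add (circleIntegrable_const _ _ _)) fun z hz => ?_
    rw [abs_of_pos r0] at hz
    have hz' := mem_sphere_zero_iff_norm.1 hz
    have i1 := (hD.cl u z hu (by linarith)).1.mono (show (2 : ℝ) ≤ 4 by norm_num)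
    have i2 := (hD.cl 0 z u0 (by linarith)).1.mono (show (2 : ℝ) ≤ 4 by norm_num)
    have l1 := hD.tol u z hu (by linarith) (by linarith)
    have l2 := hD.tol 0 z u0 (by linarith) (by linarith)
    rw [← hs] at l1 l2
    rw [w.jf_gram (bs hu) (sphere_subset_closedBall hz) i1,
      w.jf_gram (bs u0) (sphere_subset_closedBall hz) i2]
    have a1 := (abs_le.1 (w.lip (A.ch (F (z, 0))) _ _ i1.2 i2.2)).2
    have a2 := (abs_le.1 (g.ld (A.ch (F (z, 0))) _ _ i1.2 i2.2)).1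
    have a3 := (abs_le.1 (hld _ (l1.trans (by linarith))).2).2
    have a4 := (abs_le.1 (hld _ (l2.trans (by linarith))).2).1
    have b1 := mul_le_mul_of_nonneg_left (yy z hz'.le) (zero_le_one.trans hw)
    have b2 := mul_le_mul_of_nonneg_left (yy z hz'.le) (zero_le_one.trans hg)
    have b3 := mul_le_mul_of_nonneg_left l1 (zero_le_one.trans hC₀)
    have b4 := mul_le_mul_of_nonneg_left l2 (zero_le_one.trans hC₀)
    linarith
  have e2 : w.jf (sh W u) 0 = w.jf (sh W 0) 0 := by simp only [Vol.jf, Atl.fr, sh_cen]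
  have c4 : ∀ {u}, ‖u‖ ≤ 2 * t ^ 8 →
      ContinuousOn (fun z => 4 * ρ.sp (ctr (sh W u)) z) (closedBall 0 r') := fun hu z hz =>
    (continuousAt_const.mul (ρ.sp_cont (bs hu z hz).1.ctr)).continuousWithinAt
  have e3 := grn_mono (u := fun z => 4 * ρ.sp (ctr (sh W 0)) z - 64 * L * (P ^ 3 * t)) le_rfl r0.le
    ((c4 u0).sub continuousOn_const) (c4 hu) fun z hz => by
      have m := mem_closedBall_zero_iff.2 hz.le
      obtain ⟨i1, -, d1, d0⟩ := hD.cl u z hu (by linarith)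
      obtain ⟨i2, -, d2, -⟩ := hD.cl 0 z u0 (by linarith)
      rw [← hs] at d1 d2
      rw [ρ.sp_eq (bs hu z m).1.ctr.holAt i1.1, ρ.sp_eq (bs u0 z m).1.ctr.holAt i2.1]
      have a1 := (abs_le.1 (hlip (A.ch (F (z, 0))) _ _ (A.dv (A.ch (F (z, 0))) (ctr (sh W u)) z)
        (A.dv (A.ch (F (z, 0))) (ctr (sh W 0)) z) (i1.2.trans (by norm_num))
        (i2.2.trans (by norm_num)))).2
      have y1 := yy z hz.le
      rw [norm_sub_rev] at y1
      generalize A.dv (A.ch (F (z, 0))) (ctr (sh W u)) z = a at d1 a1 ⊢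
      generalize A.dv (A.ch (F (z, 0))) (ctr (sh W 0)) z = a' at d2 a1 ⊢
      generalize A.dv (A.ch (F (z, 0))) (ctr F) z = b at d0 d1 d2
      have n1 : ‖a‖ ≤ 2 * P := by linarith [norm_sub_norm_le a b]
      have n2 : ‖a'‖ ≤ 2 * P := by linarith [norm_sub_norm_le a' b]
      have n3 : ‖a' - a‖ ≤ 2 * s := by
        rw [norm_sub_rev] at d1
        linarith [norm_sub_le_norm_sub_add_norm_sub a' b a]
      have n4 := mul_le_mul y1 (pow_le_pow_left₀ (norm_nonneg _) n2 2) (by positivity)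
        (by positivity)
      have n5 := mul_le_mul n3 (add_le_add n1 n2) (by positivity) (by positivity)
      have n6 : P * s ≤ P ^ 2 * s := mul_le_mul_of_nonneg_right (le_self_pow₀ hP two_ne_zero) s0
      have n7 := mul_le_mul_of_nonneg_left ((add_le_add n4 n5).trans
        (show _ ≤ 16 * (P ^ 3 * t) by linarith)) (zero_le_one.trans hL)
      change levi _ (A.e _ (sh W 0 (z, 0))) _ - levi _ (A.e _ (sh W u (z, 0))) _ ≤ _ at a1
      change 4 * levi _ (A.e _ (sh W 0 (z, 0))) _ - _ ≤ 4 * levi _ (A.e _ (sh W u (z, 0))) _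
      linarith
  rw [grn_sub le_rfl (c4 u0) continuousOn_const, grn_const le_rfl r0.le] at e3
  have e4 : L * (P ^ 3 * t) * r' ^ 2 ≤ L * (P ^ 3 * t) :=
    mul_le_of_le_one_right (by positivity) (pow_le_one₀ r0.le r1)
  have e5 := mul_le_mul_of_nonneg_left (show grn (fun z => 4 * ρ.sp (ctr (sh W 0)) z) 0 r' -
    16 * (L * (P ^ 3 * t)) ≤ grn (fun z => 4 * ρ.sp (ctr (sh W u)) z) 0 r' by linarith) hε
  have e6 := mul_le_mul_of_nonneg_left s2 (show 0 ≤ 2 * (w.C + g.C + C₀) by linarith)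
  rw [sh_zero] at e1 e2 e5
  rw [Jt, Jt, Vol.Jf, Vol.Jf, Atl.Pot.T, Atl.Pot.T, e2]
  linarith

theorem Jt_up (hε : 0 ≤ ε) : ∃ C : ℝ, 1 ≤ C ∧ ∀ (F : ℂ × E n → X) (r Λ η M : ℝ),
    g.Gd F r Λ η → Λ ≤ M → ‖g.Gr F 0‖ ≤ M → Jt w ρ ε F r ≤ C * M ^ 2 := by
  obtain ⟨CJ, hCJ, hJ⟩ := w.J_up
  obtain ⟨S, hS, hsp⟩ := ρ.sp_le g
  have p0 : 0 ≤ ε * S := by positivity
  refine ⟨CJ + ε * S, by linarith, fun F r Λ η M hd hM h0 => ?_⟩
  have M1 : 1 ≤ M := hd.one.trans hM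
  have r0 : 0 ≤ r := by linarith [hd.lo]
  have e1 := hJ F r Λ η M hd M1 h0
  have e2 := grn_le (u := fun z => 4 * ρ.sp (ctr F) z) (c := 4 * (S * M ^ 2)) le_rfl r0
    (fun z hz => (continuousAt_const.mul (ρ.sp_cont (hd.bs z hz).1.ctr)).continuousWithinAt)
    fun z hz => by
      have a := (abs_le.1 (hsp (ctr F) z)).2
      have b := mul_le_mul_of_nonneg_left ((hd.sp z hz.le).trans
        (pow_le_pow_left₀ (zero_le_one.trans hd.one) hM 2)) (zero_le_one.trans hS)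
      linarith
  have e3 : S * M ^ 2 * r ^ 2 ≤ S * M ^ 2 :=
    mul_le_of_le_one_right (by positivity) (pow_le_one₀ r0 hd.le)
  have e4 := mul_le_mul_of_nonneg_left (show grn (fun z => 4 * ρ.sp (ctr F) z) 0 r ≤
    S * M ^ 2 by linarith) hε
  have e5 := mul_le_mul_of_nonneg_left (le_self_pow₀ M1 two_ne_zero) (zero_le_one.trans hCJ)
  rw [Jt, Atl.Pot.T]
  linarith

end Vale.Agent.P272
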