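import Vale.Agent.P272.F.G.Green1
import Vale.Agent.P272.F.Kit.Main
import Vale.Agent.P272.BasB

/-! P272 F/H/Defs (owner helper64, frozen): definitions for the proof of `vsl`. -/

open Metric Set Filter Topology Complex MeasureTheory
open scoped ContDiff

noncomputable section

namespace Vale.Agent.P272

variable {n : ℕ} {X : Type} [TopologicalSpace X] {A : Atl n X}

/-- The form `θ` on a vector of the frame. -/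
def Atl.Pot.fq (θ : A.Pot) (G : ℂ × E n → X) (z : ℂ) (e : E n) : ℝ :=
  levi (θ.u (A.ch (G (z, 0)))) (A.e (A.ch (G (z, 0))) (G (z, 0))) (A.fr (A.ch (G (z, 0))) G z e)

/-- The twisted functional. -/
def Jt {g : Met A} (w : Vol g) (ρ : A.Pot) (ε : ℝ) (G : ℂ × E n → X) (r : ℝ) : ℝ :=
  w.Jf G r + ε * ρ.T (ctr G) r

/-- The real part of the trace. -/
def rtr (T : L n) : ℝ := ∑ i, qf T (eb i)

/-- Bounds near the centre of discs. -/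
def Atl.NB (θ ρ : A.Pot) (C₀ : ℝ) : Prop :=
  1 ≤ C₀ ∧ ∀ f : ℂ → X, (∀ z ∈ ball (0 : ℂ) (1 / 2), A.HolAt f z) → ∀ z, ‖z‖ ≤ 1 / 4 →
    |θ.sp f z| ≤ C₀ ∧ |ρ.sp f z| ≤ C₀

/-- `FamAt` for a general direction. -/
structure Atl.FamV (A : Atl n X) (F W : ℂ × E n → X) (k : Fin A.N) (e : E n) (z : ℂ)
    (ε M B : ℝ) : Prop where
  fam : Fam (fun s => A.e k (sh W (s • e) (z, 0))) (fun s => A.dv k (ctr (sh W (s • e))) z)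
    (fun s => A.fr k (sh W (s • e)) z) ε M B
  c0 : sh W ((0 : ℂ) • e) (z, 0) = F (z, 0)
  w0 : A.dv k (ctr (sh W ((0 : ℂ) • e))) z = A.dv k (ctr F) z
  v0 : A.fr k (sh W ((0 : ℂ) • e)) z = A.fr k F z
  y1 : deriv (fun s : ℂ => A.e k (sh W (s • e) (z, 0))) 0 = z • A.fr k F z e
  w1 : deriv (fun s : ℂ => A.dv k (ctr (sh W (s • e))) z) 0 =
    A.fr k F z e + z • deriv (A.fr k F) z e
  hol : ∀ s : ℂ, ‖s‖ < ε → sh W (s • e) (z, 0) ∈ (A.e k).source ∧ A.Hol (sh W (s • e)) (z, 0)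

/-- A state and its tube, with all directions. -/
structure Met.SV (g : Met A) (F W : ℂ × E n → X) (r Λ t M ε B K D P : ℝ) : Prop where
  sw : g.SW F W r Λ t M ε B K D P
  fam : ∀ z e, ‖e‖ ≤ 1 → ‖z‖ ≤ r - 3 * t ^ 24 → A.FamV F W (A.ch (F (z, 0))) e z ε M B
  hol : ∀ z u, ‖z‖ < r - 2 * t ^ 24 → ‖u‖ < 2 * ε → A.HolAt W (z, u)

/-- A tube whose displaced discs are tubes. -/
structure Atl.Tu (A : Atl n X) (W : ℂ × E n → X) (R δ : ℝ) : Prop where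
  hol : ∀ z u, ‖z‖ < R → ‖u‖ < δ → A.Hol W (z, z • u)
  bs : ∀ u, ‖u‖ < δ → A.Bs (sh W u) (ball 0 R)

/-- The displaced states. -/
structure Met.DS (g : Met A) (F W : ℂ × E n → X) (r Λ t P : ℝ) : Prop where
  ΛP : Λ ≤ P
  tu : A.Tu W (r - 3 * t ^ 24) (2 * t ^ 8)
  cr : ∀ u, ‖u‖ ≤ 2 * t ^ 8 → g.Cr (sh W u) (r - 3 * t ^ 24) P
  sp : ∀ u z, ‖u‖ ≤ 2 * t ^ 8 → ‖z‖ ≤ r - 3 * t ^ 24 → g.sp (ctr (sh W u)) z ≤ (2 * Λ) ^ 2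
  tol : ∀ u z, ‖u‖ ≤ 2 * t ^ 8 → r - 4 * t ^ 24 ≤ ‖z‖ → ‖z‖ ≤ r - 3 * t ^ 24 →
    ‖g.Gr (sh W u) z - 1‖ ≤ P * t ^ 8
  tolF : ∀ z, r - 4 * t ^ 24 ≤ ‖z‖ → ‖z‖ ≤ r → ‖g.Gr F z - 1‖ ≤ P * t ^ 24
  c0 : ∀ z, ‖z‖ ≤ r - 3 * t ^ 24 → W (z, 0) = F (z, 0) ∧
    A.fr (A.ch (F (z, 0))) W z = A.fr (A.ch (F (z, 0))) F z
  cl : ∀ u z, ‖u‖ ≤ 2 * t ^ 8 → ‖z‖ ≤ r - 3 * t ^ 24 →
    A.In (A.ch (F (z, 0))) 2 (sh W u (z, 0)) ∧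
    ‖A.e (A.ch (F (z, 0))) (sh W u (z, 0)) - A.e (A.ch (F (z, 0))) (F (z, 0))‖ ≤ P * t ^ 8 ∧
    ‖A.dv (A.ch (F (z, 0))) (ctr (sh W u)) z - A.dv (A.ch (F (z, 0))) (ctr F) z‖ ≤ P * t ^ 8 ∧
    ‖A.dv (A.ch (F (z, 0))) (ctr F) z‖ ≤ P

theorem sh_zero (W : ℂ × E n → X) : sh W 0 = W := by
  funext p
  simp [sh]

theorem sh_cen (W : ℂ × E n → X) (u v : E n) : sh W u (0, v) = W (0, v) := by
  simp [sh]

theorem sh_smul (W : ℂ × E n → X) (s : ℂ) (e : E n) :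
    sh W (s • e) = fun p => W (p.1, (p.1 * s) • e + p.2) := by
  funext p
  simp [sh, mul_smul]

end Vale.Agent.P272
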