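import Vale.Agent.P272.F.H.Lap
import Vale.Agent.P272.AtlB

/-! P272 F/H/Sp (task). Helper names start with `hsp_`.
Plan. `sp_eq`, `fq_eq`: `θ.cmp` with `dv_chg`, `fr_chg`. Continuity: near `z` use the chart `k = ch (f z)` (`Hol.analyticAt`, `fr_analytic`, continuity of the second derivative of `θ.u k`). `sp_le`: `fam_bound`, `g.lo`. `fam_lip`: `taylor2` for `fderiv ℝ (fderiv ℝ (u j))` on the open target. `bs_nhds`: units are open, `fr_analytic`, `unit_chg`. `lap_jf`: near `z`, `jf = θ.u k ∘ e k ∘ ctr G + c + log ‖det (fr k G ·)‖^2` (`jf_eq` with `S = {z'}`), `analyticAt_det`, `det_ne`, `lap_comp`, `lap_log`. -/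

open Metric Set Filter Topology Complex MeasureTheory
open scoped ContDiff

noncomputable section

namespace Vale.Agent.P272

variable {n : ℕ} {X : Type} [TopologicalSpace X] {A : Atl n X}

variable (θ : A.Pot) {f : ℂ → X} {G : ℂ × E n → X} {z : ℂ} {k : Fin A.N} {S : Set ℂ}

theorem Atl.Pot.sp_eq (h : A.HolAt f z) (hk : f z ∈ (A.e k).source) :
    θ.sp f z = levi (θ.u k) (A.e k (f z)) (A.dv k f z) := by
  rw [θ.cmp _ k _ (Atl.ch_in (f z)).1 hk, ← Atl.dv_chg h (Atl.ch_in (f z)).1 hk]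
  rfl

theorem Atl.Pot.fq_eq (h : A.HolAt G (z, 0)) (hk : G (z, 0) ∈ (A.e k).source) (e : E n) :
    θ.fq G z e = levi (θ.u k) (A.e k (G (z, 0))) (A.fr k G z e) := by
  rw [θ.cmp _ k _ (Atl.ch_in (G (z, 0))).1 hk, Atl.Pot.fq,
    Atl.fr_chg h (Atl.ch_in (G (z, 0))).1 hk]
  rfl

theorem hsp_cont {u : E n → ℝ} {y a : ℂ → E n} (hu : ContDiffAt ℝ ∞ u (y z))
    (hy : ContinuousAt y z) (ha : ContinuousAt a z) :
    ContinuousAt (fun w => levi u (y w) (a w)) z := by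
  have h1 : ContinuousAt (fderiv ℝ (fderiv ℝ u)) (y z) :=
    ((hu.fderiv_right (m := ∞) le_rfl).fderiv_right (m := ∞) le_rfl).continuousAt
  have h2 := ContinuousAt.comp h1 hy
  have h3 : ContinuousAt (fun w => I • a w) z := ha.const_smul I
  exact (((h2.clm_apply ha).clm_apply ha).add ((h2.clm_apply h3).clm_apply h3)).div_const _

theorem Atl.Pot.sp_cont (h : A.Hol f z) : ContinuousAt (θ.sp f) z := by
  have hk := (Atl.ch_in (A := A) (f z)).1
  have ha := h.analyticAt hk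
  refine (hsp_cont (y := A.e (A.ch (f z)) ∘ f) (a := A.dv (A.ch (f z)) f) (pv_pot_at θ hk)
    ha.continuousAt ha.deriv.continuousAt).congr ?_
  filter_upwards [h, h.holAt.1.eventually ((A.e _).open_source.mem_nhds hk)] with w h1 h2
  exact (θ.sp_eq h1 h2).symm

theorem Atl.Pot.fq_cont (h : A.Hol G (z, 0)) (e : E n) : ContinuousAt (fun z => θ.fq G z e) z := by
  have hk := (Atl.ch_in (A := A) (G (z, 0))).1
  have ha := h.ctr.analyticAt (j := A.ch (G (z, 0))) hk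
  have hc : ContinuousAt (fun w : ℂ => ((w, 0) : ℂ × E n)) z := by fun_prop
  refine (hsp_cont (y := A.e (A.ch (G (z, 0))) ∘ ctr G) (a := fun w => A.fr (A.ch (G (z, 0))) G w e)
    (pv_pot_at θ hk) ha.continuousAt
    ((h.fr_analytic hk).continuousAt.clm_apply continuousAt_const)).congr ?_
  filter_upwards [hc.tendsto.eventually h,
    h.ctr.holAt.1.eventually ((A.e _).open_source.mem_nhds hk)] with w h1 h2
  exact (θ.fq_eq h1 h2 e).symm

theorem Atl.Pot.sp_congr {f' : ℂ → X} (h : f =ᶠ[𝓝 z] f') : θ.sp f z = θ.sp f' z := by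
  have h1 : ∀ k, A.dv k f z = A.dv k f' z := fun k => (h.fun_comp (A.e k)).deriv_eq
  rw [Atl.Pot.sp, Atl.Pot.sp, h1, h.eq_of_nhds]

theorem Atl.Pot.sp_le (g : Met A) : ∃ C : ℝ, 1 ≤ C ∧ ∀ f z, |θ.sp f z| ≤ C * g.sp f z := by
  obtain ⟨C, hC, h⟩ := Atl.fam_bound θ.sm
  have hg := g.one
  refine ⟨C * g.C, one_le_mul_of_one_le_of_one_le hC hg, fun f z => ?_⟩
  have hy : ‖A.e (A.ch (f z)) (f z)‖ ≤ 4 := (Atl.in_ch (A := A) (f z) (by norm_num)).2
  refine ((h _ _ hy).2.2.2 _).trans ?_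
  rw [mul_assoc]
  exact mul_le_mul_of_nonneg_left (g.lo _ _ _ hy) (by linarith)

theorem Atl.Pot.sp_nonneg {ρ : A.Pot} (h : ρ.Pos) (f : ℂ → X) (z : ℂ) : 0 ≤ ρ.sp f z := by
  exact h.nonneg ((A.e _).map_source (Atl.ch_in (f z)).1) _

theorem hsp_bil (B : E n →L[ℝ] E n →L[ℝ] ℝ) (a a' : E n) :
    |B a' a' - B a a| ≤ ‖B‖ * (‖a' - a‖ * (‖a‖ + ‖a'‖)) := by
  have e : B a' a' - B a a = B (a' - a) a' + B a (a' - a) := by
    simp only [map_sub, sub_apply]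
    ring
  have h1 := B.le_opNorm₂ (a' - a) a'
  have h2 := B.le_opNorm₂ a (a' - a)
  rw [Real.norm_eq_abs] at h1 h2
  rw [e]
  refine (abs_add_le _ _).trans ((add_le_add h1 h2).trans_eq ?_)
  ring

theorem hsp_vec (u : E n → ℝ) (y a a' : E n) : |levi u y a' - levi u y a| ≤
    ‖fderiv ℝ (fderiv ℝ u) y‖ * (‖a' - a‖ * (‖a‖ + ‖a'‖)) := by
  have h1 := abs_le.1 (hsp_bil (fderiv ℝ (fderiv ℝ u) y) a a')
  have h2 := hsp_bil (fderiv ℝ (fderiv ℝ u) y) (I • a) (I • a')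
  rw [← smul_sub, norm_smul, norm_smul, norm_smul, norm_I, one_mul, one_mul, one_mul, abs_le] at h2
  have h3 : 0 ≤ ‖fderiv ℝ (fderiv ℝ u) y‖ * (‖a' - a‖ * (‖a‖ + ‖a'‖)) := by positivity
  unfold levi
  rw [abs_le]
  constructor <;> linarith [h1.1, h1.2, h2.1, h2.2]

theorem Atl.Pot.levi_lip : ∃ C : ℝ, 1 ≤ C ∧ ∀ j y y' a a', ‖y‖ ≤ 4 → ‖y'‖ ≤ 4 →
    |levi (θ.u j) y' a' - levi (θ.u j) y a| ≤
      C * (‖y' - y‖ * ‖a'‖ ^ 2 + ‖a' - a‖ * (‖a‖ + ‖a'‖)) := by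
  choose C h1 h2 using fun j => atlb_lip (A.e j).open_target (A.tgt j)
    (((θ.sm j).fderiv_of_isOpen (m := ∞) (A.e j).open_target (by simp)).fderiv_of_isOpen (m := ∞)
      (A.e j).open_target (by simp))
  obtain ⟨C', hC'⟩ := Finite.exists_le C
  refine ⟨max 1 C', le_max_left _ _, fun j y y' a a' hy hy' => ?_⟩
  have c1 : C j ≤ max 1 C' := (hC' j).trans (le_max_right _ _)
  obtain ⟨b1, -, b2⟩ := h2 j y (mem_closedBall_zero_iff.2 hy)
  have b3 := (b2 y' (mem_closedBall_zero_iff.2 hy')).trans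
    (mul_le_mul_of_nonneg_right c1 (norm_nonneg _))
  have a1 := (abs_levi_sub (θ.u j) (θ.u j) y' y a').trans
    (mul_le_mul_of_nonneg_right b3 (sq_nonneg _))
  have a2 := (hsp_vec (θ.u j) y a a').trans
    (mul_le_mul_of_nonneg_right (b1.trans c1) (by positivity))
  refine (abs_sub_le _ (levi (θ.u j) y a') _).trans ((add_le_add a1 a2).trans_eq ?_)
  ring

theorem Atl.Bs.nhds (h : A.Bs G S) (hz : z ∈ S) : ∀ᶠ z' in 𝓝 z, A.Bs G {z'} := by
  obtain ⟨h1, h2⟩ := h z hz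
  have hk := (Atl.ch_in (A := A) (G (z, 0))).1
  have hc : ContinuousAt (fun w : ℂ => ((w, 0) : ℂ × E n)) z := by fun_prop
  have h3 : ∀ᶠ p in 𝓝 ((z, 0) : ℂ × E n), A.Hol G p := Filter.Eventually.eventually_nhds h1
  filter_upwards [hc.tendsto.eventually h3,
    h1.ctr.holAt.1.eventually ((A.e _).open_source.mem_nhds hk),
    (h1.fr_analytic hk).continuousAt.eventually (Units.isOpen.mem_nhds (h2 _ hk))] with w a1 a2 a3
  rintro _ rfl
  exact ⟨a1, fun j hj => Atl.unit_chg a1.holAt hj a2 a3⟩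

theorem lap_sm {φ : X → ℝ} (hφ : A.Sm φ) (h : A.Hol f z) (hk : f z ∈ (A.e k).source) :
    ContDiffAt ℝ 2 (fun z => φ (f z)) z ∧
      lap (fun z => φ (f z)) z = 4 * levi (A.loc φ k) (A.e k (f z)) (A.dv k f z) := by
  have ha := h.analyticAt hk
  have hw : ContDiffAt ℝ 2 (A.loc φ k) ((A.e k ∘ f) z) :=
    (pv_at hφ hk).of_le (WithTop.coe_le_coe.2 (le_top (a := (2 : ℕ∞))))
  have e : (fun z => φ (f z)) =ᶠ[𝓝 z] fun z => A.loc φ k ((A.e k ∘ f) z) := by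
    filter_upwards [h.holAt.1.eventually ((A.e k).open_source.mem_nhds hk)] with w h1
    exact (pv_loc φ h1).symm
  refine ⟨(hw.comp z (ha.contDiffAt.restrict_scalars ℝ)).congr_of_eventuallyEq e, ?_⟩
  rw [lap_congr e, lap_comp ha hw]
  rfl

theorem lap_jf {g : Met A} (w : Vol g) {c : ℝ} (hl : ∀ j y, w.ℓ j y = θ.u j y + c)
    (h : A.Bs G S) (hz : z ∈ S) :
    ContDiffAt ℝ 2 (w.jf G) z ∧ lap (w.jf G) z = 4 * θ.sp (ctr G) z := by
  obtain ⟨h1, h2⟩ := h z hz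
  obtain ⟨hk, hk'⟩ := Atl.ch_in (A := A) (G (z, 0))
  have ha := h1.ctr.analyticAt (j := A.ch (G (z, 0))) hk
  have hw : ContDiffAt ℝ 2 (θ.u (A.ch (G (z, 0)))) ((A.e (A.ch (G (z, 0))) ∘ ctr G) z) :=
    (pv_pot_at θ hk).of_le (WithTop.coe_le_coe.2 (le_top (a := (2 : ℕ∞))))
  have hd : AnalyticAt ℂ (fun z' => (A.fr (A.ch (G (z, 0))) G z').det) z :=
    AnalyticAt.comp (g := fun S : L n => S.det) (analyticAt_det _) (h1.fr_analytic hk)
  obtain ⟨l1, l2⟩ := lap_log hd (det_ne (h2 _ hk))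
  have e : w.jf G =ᶠ[𝓝 z] fun z' =>
      (θ.u (A.ch (G (z, 0))) ((A.e (A.ch (G (z, 0))) ∘ ctr G) z') + c) +
        Real.log (‖(A.fr (A.ch (G (z, 0))) G z').det‖ ^ 2) := by
    filter_upwards [h.nhds hz, h1.ctr.holAt.1.eventually ((A.e _).open_source.mem_nhds hk),
      ha.continuousAt.norm.eventually (gt_mem_nhds (hk'.trans (by norm_num : (1 : ℝ) < 4)))]
      with z' a1 a2 a3
    rw [w.jf_eq a1 rfl ⟨a2, a3.le⟩, hl]
    rfl
  have l3 : ContDiffAt ℝ 2 (fun z' =>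
      θ.u (A.ch (G (z, 0))) ((A.e (A.ch (G (z, 0))) ∘ ctr G) z') + c) z :=
    (hw.comp z (ha.contDiffAt.restrict_scalars ℝ)).add contDiffAt_const
  refine ⟨(l3.add l1).congr_of_eventuallyEq e, ?_⟩
  rw [lap_congr e, lap_add l3 l1, l2, add_zero, lap_add_const, lap_comp ha hw]
  rfl

end Vale.Agent.P272
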