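import Vale.Agent.P272.F.H.Defs
import Vale.Agent.P272.FamX

/-! P272 F/H/Tub (task). Helper names start with `htub_`.
Plan. `Y = e k ∘ W` is analytic at `(z, z • u)` (`Hol.analyticAt`), `sh W p.2 (p.1, 0) = W (p.1, p.1 • p.2 + 0)`; near `(z, u)`, `fr k (sh W p.2) p.1 = (fderiv ℂ Y (p.1, p.1 • p.2)).comp (inr ..)` (`famx_V`), `AnalyticAt.fderiv`. `levi`: `pv_levi_comp`, `levi_vec`. -/

open Metric Set Filter Topology Complex MeasureTheory
open scoped ContDiff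

noncomputable section

namespace Vale.Agent.P272

variable {n : ℕ} {X : Type} [TopologicalSpace X] {A : Atl n X}

variable {W : ℂ × E n → X} {R δ : ℝ} {z : ℂ} {u : E n} {k : Fin A.N}

omit [TopologicalSpace X] in
theorem htub_sh (W : ℂ × E n → X) (z : ℂ) (u : E n) : sh W u (z, 0) = W (z, z • u) := by
  simp [sh]

theorem htub_an (z : ℂ) (u : E n) :
    AnalyticAt ℂ (fun p : ℂ × E n => ((p.1, p.1 • p.2) : ℂ × E n)) (z, u) :=
  analyticAt_fst.prod (analyticAt_fst.smul analyticAt_snd)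

theorem htub_cont (hz : ‖z‖ < R) (hu : ‖u‖ < δ) (h : A.Tu W R δ) :
    ContinuousAt (fun p : ℂ × E n => W (p.1, p.1 • p.2)) (z, u) :=
  ContinuousAt.comp (g := W) (h.hol z u hz hu).holAt.1 (htub_an z u).continuousAt

theorem htub_ev (hz : ‖z‖ < R) (hu : ‖u‖ < δ) :
    ∀ᶠ p : ℂ × E n in 𝓝 (z, u), ‖p.1‖ < R ∧ ‖p.2‖ < δ :=
  (continuous_fst.norm.continuousAt.eventually_lt continuousAt_const hz).and
    (continuous_snd.norm.continuousAt.eventually_lt continuousAt_const hu)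

theorem htub_fr (hz : ‖z‖ < R) (hu : ‖u‖ < δ) (h : A.Tu W R δ)
    (hk : W (z, z • u) ∈ (A.e k).source) :
    A.fr k (sh W u) z = (fderiv ℂ (A.e k ∘ W) (z, z • u)).comp (.inr ℂ ℂ (E n)) :=
  famx_V (Y := A.e k ∘ W) ((h.hol z u hz hu).analyticAt hk).differentiableAt

theorem Atl.Tu.nhds (hz : ‖z‖ < R) (hu : ‖u‖ < δ) (h : A.Tu W R δ)
    (hk : A.In k 3 (sh W u (z, 0))) :
    ∀ᶠ p : ℂ × E n in 𝓝 (z, u), ‖p.1‖ < R ∧ ‖p.2‖ < δ ∧ A.In k 4 (sh W p.2 (p.1, 0)) := by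
  simp only [htub_sh] at hk ⊢
  have h1 := htub_cont hz hu h
  have h2 : ContinuousAt (fun p : ℂ × E n => A.e k (W (p.1, p.1 • p.2))) (z, u) :=
    ContinuousAt.comp (g := A.e k) ((A.e k).continuousAt hk.1) h1
  filter_upwards [htub_ev hz hu, h1.eventually ((A.e k).open_source.mem_nhds hk.1),
    h2.norm.eventually_lt continuousAt_const (lt_of_le_of_lt hk.2 (by norm_num : (3 : ℝ) < 4))]
    with p a b c
  exact ⟨a.1, a.2, b, c.le⟩

theorem Atl.Tu.src (hz : ‖z‖ < R) (hu : ‖u‖ < δ) (h : A.Tu W R δ)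
    (hk : sh W u (z, 0) ∈ (A.e k).source) :
    ∀ᶠ p : ℂ × E n in 𝓝 (z, u), ‖p.1‖ < R ∧ ‖p.2‖ < δ ∧ sh W p.2 (p.1, 0) ∈ (A.e k).source := by
  simp only [htub_sh] at hk ⊢
  filter_upwards [htub_ev hz hu, (htub_cont hz hu h).eventually ((A.e k).open_source.mem_nhds hk)]
    with p a b
  exact ⟨a.1, a.2, b⟩

theorem Atl.Tu.an (hz : ‖z‖ < R) (hu : ‖u‖ < δ) (h : A.Tu W R δ)
    (hk : sh W u (z, 0) ∈ (A.e k).source) :
    AnalyticAt ℂ (fun p : ℂ × E n => A.e k (sh W p.2 (p.1, 0))) (z, u) ∧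
      AnalyticAt ℂ (fun p : ℂ × E n => A.fr k (sh W p.2) p.1) (z, u) := by
  have h0 := h.src hz hu hk
  simp only [htub_sh] at hk h0 ⊢
  have h1 := (h.hol z u hz hu).analyticAt hk
  refine ⟨AnalyticAt.comp (g := A.e k ∘ W) h1 (htub_an z u), ?_⟩
  have h2 : AnalyticAt ℂ (fun p : ℂ × E n => fderiv ℂ (A.e k ∘ W) (p.1, p.1 • p.2)) (z, u) :=
    AnalyticAt.comp (g := fderiv ℂ (A.e k ∘ W)) h1.fderiv (htub_an z u)
  have h3 := (((ContinuousLinearMap.compL ℂ (E n) (ℂ × E n) (E n)).flip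
    (ContinuousLinearMap.inr ℂ ℂ (E n))).analyticAt _).comp h2
  refine h3.congr ?_
  filter_upwards [h0] with p hp
  exact (htub_fr hp.1 hp.2.1 h hp.2.2).symm

theorem Atl.Tu.der (hz : ‖z‖ < R) (hu : ‖u‖ < δ) (h : A.Tu W R δ)
    (hk : sh W u (z, 0) ∈ (A.e k).source) :
    fderiv ℂ (fun u => A.e k (sh W u (z, 0))) u = z • A.fr k (sh W u) z := by
  simp only [htub_sh] at hk ⊢
  have h1 := ((h.hol z u hz hu).analyticAt hk).differentiableAt.hasFDerivAt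
  have h2 : HasFDerivAt (fun v : E n => ((z, z • v) : ℂ × E n))
      ((0 : E n →L[ℂ] ℂ).prod (z • ContinuousLinearMap.id ℂ (E n))) u :=
    (hasFDerivAt_const z u).prodMk ((hasFDerivAt_id u).const_smul z)
  rw [htub_fr hz hu h hk]
  refine (HasFDerivAt.comp (g := A.e k ∘ W) u h1 h2).fderiv.trans
    (ContinuousLinearMap.ext fun v => ?_)
  show fderiv ℂ (A.e k ∘ W) (z, z • u) (0, z • v) = z • fderiv ℂ (A.e k ∘ W) (z, z • u) (0, v)
  rw [← map_smul, Prod.smul_mk, smul_zero]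

theorem Atl.Tu.levi_eq (hz : ‖z‖ < R) (hu : ‖u‖ < δ) (h : A.Tu W R δ)
    (hk : sh W u (z, 0) ∈ (A.e k).source) {w : E n → ℝ}
    (hw : ContDiffAt ℝ 2 w (A.e k (sh W u (z, 0)))) (e : E n) :
    levi (fun u => w (A.e k (sh W u (z, 0)))) u e =
      ‖z‖ ^ 2 * levi w (A.e k (sh W u (z, 0))) (A.fr k (sh W u) z e) := by
  have h1 : AnalyticAt ℂ (fun v : E n => A.e k (sh W v (z, 0))) u :=
    AnalyticAt.comp (g := fun p : ℂ × E n => A.e k (sh W p.2 (p.1, 0))) (f := fun v => (z, v))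
      (h.an hz hu hk).1 (analyticAt_const.prod analyticAt_id)
  refine (pv_levi_comp h1 hw e).trans ?_
  rw [h.der hz hu hk]
  exact levi_vec _ _ z _

end Vale.Agent.P272
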