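import Vale.Agent.P272.F.G.Par
import Vale.Agent.P272.F.H.Tub
import Vale.Agent.P272.F.H.Sp

/-! P272 F/H/DrA (task). Helper names start with `hdra_`.
Plan. `Φ p = θ.u j (e j (sh W p.2 (p.1, 0)))` with `θ = (ρ.cmul 2).addSm hb`; for `‖u‖ < δ`, `aF .. = circleAverage (Φ (·, u))` (`pv_loc`, `Real.circleAverage_congr_sphere`). `Tu.an` (`AnalyticAt.contDiffAt`, `restrict_scalars`), `par_avg` (F/G/Par), `pv_levi_congr`, `Tu.levi_eq`, `fq_eq`, `circleAverage_fun_smul`. -/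

open Metric Set Filter Topology Complex MeasureTheory
open scoped ContDiff

noncomputable section

namespace Vale.Agent.P272

variable {n : ℕ} {X : Type} [TopologicalSpace X] {A : Atl n X}

theorem drift_a (ρ : A.Pot) {b : X → ℝ} (hb : A.Sm b) {W : ℂ × E n → X} {R δ r₀ : ℝ} {j : Fin A.N}
    (h : A.Tu W R δ) (h0 : 0 ≤ r₀) (h1 : r₀ < R)
    (hj : ∀ u z, ‖u‖ < δ → ‖z‖ = r₀ → sh W u (z, 0) ∈ (A.e j).source) {u : E n} (hu : ‖u‖ < δ) :
    ContDiffAt ℝ 2 (fun u => aF ρ b j r₀ (ctr (sh W u))) u ∧ ∀ e,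
      levi (fun u => aF ρ b j r₀ (ctr (sh W u))) u e = r₀ ^ 2 *
        Real.circleAverage (fun z => ((ρ.cmul 2).addSm hb).fq (sh W u) z e) 0 r₀ := by
  obtain ⟨θ, hθ⟩ : ∃ θ : A.Pot, θ = (ρ.cmul 2).addSm hb := ⟨_, rfl⟩
  have hθu : ∀ y, θ.u j y = 2 * ρ.u j y + A.loc b j y := fun y => by rw [hθ]; rfl
  rw [← hθ]
  have hn : ∀ z ∈ sphere (0 : ℂ) |r₀|, ‖z‖ = r₀ := fun z hz => by
    rwa [mem_sphere_zero_iff_norm, abs_of_nonneg h0] at hz
  have e1 : (fun u => aF ρ b j r₀ (ctr (sh W u))) =ᶠ[𝓝 u]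
      fun u => Real.circleAverage (fun z => θ.u j (A.e j (sh W u (z, 0)))) 0 r₀ := by
    filter_upwards [(isOpen_lt continuous_norm continuous_const).mem_nhds hu] with v hv
    refine Real.circleAverage_congr_sphere fun z hz => ?_
    have h2 : A.loc b j (A.e j (sh W v (z, 0))) = b (sh W v (z, 0)) :=
      congrArg b ((A.e j).left_inv (hj v z hv (hn z hz)))
    simp only [hθu, h2]
    rfl
  have hS : ∀ z, ‖z‖ = r₀ →
      ContDiffAt ℝ 3 (fun p : ℂ × E n => θ.u j (A.e j (sh W p.2 (p.1, 0)))) (z, u) := by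
    intro z hz
    have hk := hj u z hu hz
    have h2 : ContDiffAt ℝ 3 (θ.u j) (A.e j (sh W u (z, 0))) :=
      ((θ.sm j).contDiffAt ((A.e j).open_target.mem_nhds ((A.e j).map_source hk))).of_le
        (WithTop.coe_le_coe.mpr (le_top : (3 : ℕ∞) ≤ ⊤))
    exact h2.comp (z, u)
      ((Atl.Tu.an (hz.trans_lt h1) hu h hk).1.contDiffAt.restrict_scalars ℝ)
  obtain ⟨a1, a2⟩ := par_avg h0 hS
  refine ⟨a1.congr_of_eventuallyEq e1, fun e => ?_⟩
  have e2 : levi (fun u => aF ρ b j r₀ (ctr (sh W u))) u e = levi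
      (fun u => Real.circleAverage (fun z => θ.u j (A.e j (sh W u (z, 0)))) 0 r₀) u e := by
    unfold levi
    rw [e1.fderiv.fderiv_eq]
  rw [e2, a2 e, ← smul_eq_mul (r₀ ^ 2), ← Real.circleAverage_fun_smul]
  refine Real.circleAverage_congr_sphere fun z hz => ?_
  have hz' := hn z hz
  have hk := hj u z hu hz'
  have hzR : ‖z‖ < R := hz'.trans_lt h1
  have h3 := Atl.Tu.levi_eq hzR hu h hk (θ.at2 hk) e
  have h4 := θ.fq_eq (h.bs u hu z (mem_ball_zero_iff.2 hzR)).1.holAt hk e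
  rw [hz'] at h3
  simp only [smul_eq_mul]
  rw [h4]
  exact h3

end Vale.Agent.P272
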