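import Vale.Agent.P272.F.G.Par
import Vale.Agent.P272.F.H.Tub
import Vale.Agent.P272.F.H.Sp

/-! P272 F/H/DrJ (task). Helper names start with `hdrj_`.
Plan. `jf (sh W u) 0 = jf W 0` (`sh_cen`), `Jf = jf W 0 - circleAverage (Φ (·, u))` with `Φ p = jf (sh W p.2) p.1`; `par_avg` (F/G/Par), `levi_sub`, `levi_const`. Near `(z, u)`, with `k = ch (sh W u (z, 0))`: `jf = θ.u k (..) + c + log ‖det (fr k ..)‖^2` (`Tu.nhds`, `jf_eq`, `Tu.bs`); `Tu.an`, `analyticAt_det`, `det_ne`, `levi_log`, `log_smooth` (for smoothness in `(z, u)` use `ContDiffAt.log`, `ContDiffAt.norm_sq`), `Tu.levi_eq`, `pv_levi_congr`, `pv_levi_add`. -/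

open Metric Set Filter Topology Complex MeasureTheory
open scoped ContDiff

noncomputable section

namespace Vale.Agent.P272

variable {n : ℕ} {X : Type} [TopologicalSpace X] {A : Atl n X}

theorem hdrj_loc {g : Met A} (w : Vol g) (θ : A.Pot) {c : ℝ}
    (hl : ∀ j y, w.ℓ j y = θ.u j y + c) {W : ℂ × E n → X} {R δ : ℝ} (h : A.Tu W R δ) {z : ℂ}
    {u : E n} (hz : ‖z‖ < R) (hu : ‖u‖ < δ) :
    ContDiffAt ℝ 3 (fun p : ℂ × E n => w.jf (sh W p.2) p.1) (z, u) ∧ ∀ e,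
      levi (fun u => w.jf (sh W u) z) u e = ‖z‖ ^ 2 * θ.fq (sh W u) z e := by
  have hk : A.In (A.ch (sh W u (z, 0))) 3 (sh W u (z, 0)) := Atl.in_ch _ (by norm_num)
  unfold Atl.Pot.fq
  generalize A.ch (sh W u (z, 0)) = k at hk ⊢
  have ev : (fun p : ℂ × E n => w.jf (sh W p.2) p.1) =ᶠ[𝓝 (z, u)] fun p =>
      θ.u k (A.e k (sh W p.2 (p.1, 0))) + c +
        Real.log (‖(A.fr k (sh W p.2) p.1).det‖ ^ 2) := by
    filter_upwards [h.nhds hz hu hk] with p hp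
    rw [w.jf_eq (h.bs p.2 hp.2.1) (mem_ball_zero_iff.2 hp.1) hp.2.2, hl]
  obtain ⟨a1, a2⟩ := h.an hz hu hk.1
  have a3 : AnalyticAt ℂ (fun p : ℂ × E n => (A.fr k (sh W p.2) p.1).det) (z, u) :=
    AnalyticAt.comp (f := fun p : ℂ × E n => A.fr k (sh W p.2) p.1) (analyticAt_det _) a2
  have d0 : (A.fr k (sh W u) z).det ≠ 0 :=
    det_ne ((h.bs u hu z (mem_ball_zero_iff.2 hz)).2 k hk.1)
  have s0 : ContDiffAt ℝ 3 (θ.u k) (A.e k (sh W u (z, 0))) :=
    (pv_pot_at θ hk.1).of_le ENat.LEInfty.out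
  have s1 : ContDiffAt ℝ 3 (fun p : ℂ × E n => θ.u k (A.e k (sh W p.2 (p.1, 0)))) (z, u) :=
    ContDiffAt.comp (f := fun p : ℂ × E n => A.e k (sh W p.2 (p.1, 0))) (z, u) s0
      ((a1.contDiffAt (n := 3)).restrict_scalars ℝ)
  have s2 : ContDiffAt ℝ 3
      (fun p : ℂ × E n => Real.log (‖(A.fr k (sh W p.2) p.1).det‖ ^ 2)) (z, u) :=
    (((a3.contDiffAt (n := 3)).restrict_scalars ℝ).norm_sq ℂ).log
      (pow_ne_zero 2 (norm_ne_zero_iff.2 d0))
  refine ⟨((s1.add contDiffAt_const).add s2).congr_of_eventuallyEq ev, fun e => ?_⟩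
  have i1 : ContDiffAt ℝ 3 (fun u : E n => (z, u)) u := contDiffAt_const.prodMk contDiffAt_id
  have i2 : AnalyticAt ℂ (fun u : E n => (z, u)) u := analyticAt_const.prod analyticAt_id
  have t1 : ContDiffAt ℝ 2 (fun u => θ.u k (A.e k (sh W u (z, 0)))) u :=
    (ContDiffAt.comp (f := fun u : E n => (z, u)) u s1 i1).of_le (by norm_num)
  have t2 : ContDiffAt ℝ 2 (fun u => Real.log (‖(A.fr k (sh W u) z).det‖ ^ 2)) u :=
    (ContDiffAt.comp (f := fun u : E n => (z, u)) u s2 i1).of_le (by norm_num)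
  have t3 : AnalyticAt ℂ (fun u => (A.fr k (sh W u) z).det) u :=
    AnalyticAt.comp (f := fun u : E n => (z, u)) a3 i2
  have ev' : (fun u => w.jf (sh W u) z) =ᶠ[𝓝 u] fun u =>
      θ.u k (A.e k (sh W u (z, 0))) + c + Real.log (‖(A.fr k (sh W u) z).det‖ ^ 2) :=
    i1.continuousAt.tendsto.eventually ev
  rw [pv_levi_congr ev', pv_levi_add (t1.add contDiffAt_const) t2, levi_log t3 d0, add_zero,
    levi_add_const, h.levi_eq hz hu hk.1 (s0.of_le (by norm_num))]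

theorem drift_j {g : Met A} (w : Vol g) (θ : A.Pot) {c : ℝ} (hl : ∀ j y, w.ℓ j y = θ.u j y + c)
    {W : ℂ × E n → X} {R δ r : ℝ} (h : A.Tu W R δ) (h0 : 0 ≤ r) (h1 : r < R) {u : E n}
    (hu : ‖u‖ < δ) : ContDiffAt ℝ 2 (fun u => w.Jf (sh W u) r) u ∧ ∀ e,
      levi (fun u => w.Jf (sh W u) r) u e =
        -(r ^ 2 * Real.circleAverage (fun z => θ.fq (sh W u) z e) 0 r) := by
  have e1 : (fun u => w.Jf (sh W u) r) = fun u => w.jf W 0 -
      Real.circleAverage (fun z => (fun p : ℂ × E n => w.jf (sh W p.2) p.1) (z, u)) 0 r := by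
    funext u
    have : w.jf (sh W u) 0 = w.jf W 0 := by simp only [Vol.jf, Atl.fr, sh_cen]
    rw [Vol.Jf, this]
  obtain ⟨p1, p2⟩ := par_avg (S := fun p : ℂ × E n => w.jf (sh W p.2) p.1) (u := u) h0
    fun z hz => (hdrj_loc w θ hl h (hz.trans_lt h1) hu).1
  rw [e1]
  refine ⟨contDiffAt_const.sub p1, fun e => ?_⟩
  rw [levi_sub contDiffAt_const p1, levi_const, zero_sub, p2, neg_inj, ← smul_eq_mul,
    ← Real.circleAverage_fun_smul]
  refine Real.circleAverage_congr_sphere fun z hz => ?_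
  have hz' : ‖z‖ = r := by rwa [mem_sphere_zero_iff_norm, abs_of_nonneg h0] at hz
  rw [smul_eq_mul, ← hz']
  exact (hdrj_loc w θ hl h (hz'.trans_lt h1) hu).2 e

end Vale.Agent.P272
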