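import Vale.Agent.P272.F.G.TDr
import Vale.Agent.P272.F.H.Tub
import Vale.Agent.P272.F.H.Sp

/-! P272 F/H/DrT (task). Helper names start with `hdrt_`.
Plan. `T_drift` (F/G/TDr) for `G p = sh W p.2 (p.1, 0)` (`Hol.comp`); `ρ.lv G z u e = ‖z‖^2 * ρ.fq (sh W u) z e` (`Tu.der`, `levi_vec`), zero at `z = 0`; `circleAverage_congr_sphere`, `circleAverage_fun_smul`. -/

open Metric Set Filter Topology Complex MeasureTheory
open scoped ContDiff

noncomputable section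

namespace Vale.Agent.P272

variable {n : ℕ} {X : Type} [TopologicalSpace X] {A : Atl n X}

theorem hdrt_hol {W : ℂ × E n → X} {R δ : ℝ} (h : A.Tu W R δ) {z : ℂ} {u : E n} (hz : ‖z‖ < R)
    (hu : ‖u‖ < δ) : A.Hol (fun p : ℂ × E n => sh W p.2 (p.1, 0)) (z, u) := by
  have h1 : (fun p : ℂ × E n => sh W p.2 (p.1, 0)) = fun p : ℂ × E n => W (p.1, p.1 • p.2) := by
    funext p
    simp only [sh, add_zero]
  have h2 : Differentiable ℂ fun p : ℂ × E n => ((p.1, p.1 • p.2) : ℂ × E n) :=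
    differentiable_fst.prodMk (differentiable_fst.fun_smul differentiable_snd)
  rw [h1]
  exact Atl.Hol.comp (F := W) (φ := fun p : ℂ × E n => ((p.1, p.1 • p.2) : ℂ × E n)) (p := (z, u))
    (h.hol z u hz hu) (Eventually.of_forall h2)

theorem hdrt_lv (ρ : A.Pot) {W : ℂ × E n → X} {R δ : ℝ} (h : A.Tu W R δ) {z : ℂ} {u : E n}
    (hz : ‖z‖ < R) (hu : ‖u‖ < δ) (e : E n) :
    ρ.lv (fun p : ℂ × E n => sh W p.2 (p.1, 0)) z u e = ‖z‖ ^ 2 * ρ.fq (sh W u) z e := by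
  have h1 := Atl.Tu.der hz hu h (Atl.ch_in (A := A) (sh W u (z, 0))).1
  unfold Atl.Pot.lv Atl.Pot.fq
  beta_reduce
  rw [← levi_vec]
  exact congrArg _ (congrArg (fun T : L n => T e) h1)

theorem drift_t (ρ : A.Pot) {W : ℂ × E n → X} {R δ r : ℝ} (h : A.Tu W R δ) (h0 : 0 ≤ r)
    (h1 : r < R) (h2 : r ≤ 1) {u : E n} (hu : ‖u‖ < δ) :
    ContDiffAt ℝ 2 (fun u => ρ.T (ctr (sh W u)) r) u ∧ ∀ e,
      levi (fun u => ρ.T (ctr (sh W u)) r) u e =
        r ^ 2 * Real.circleAverage (fun z => ρ.fq (sh W u) z e) 0 r := by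
  obtain ⟨h3, h4⟩ := T_drift (G := fun p : ℂ × E n => sh W p.2 (p.1, 0)) (u := u) ρ h0
    fun z hz => hdrt_hol h (hz.trans_lt h1) hu
  refine ⟨h3, fun e => (h4 e).trans ?_⟩
  rw [hdrt_lv ρ h (by rw [norm_zero]; linarith) hu, norm_zero, zero_pow two_ne_zero, zero_mul,
    sub_zero, ← smul_eq_mul, ← Real.circleAverage_fun_smul]
  refine Real.circleAverage_congr_sphere fun z hz => ?_
  have h5 : ‖z‖ = r := by rwa [mem_sphere_zero_iff_norm, abs_of_nonneg h0] at hz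
  beta_reduce
  rw [hdrt_lv ρ h (by linarith) hu, h5, smul_eq_mul]

end Vale.Agent.P272
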