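import Vale.Agent.P272.F.H.Sp

/-! P272 F/H/Gain (task). Helper names start with `hgain_`.
Plan. Pointwise in the chart `k = ch (G (z, 0))`, `V = fr k G z`: `∑ i, fq G z (eb i) = trL (θ.u k) y V`. `gain`: `Bar.ma`, `maR l V = n exp ((l + log ‖det V‖^2) / n)` (`det_ne`, `Real.rpow_def_of_pos`), `exp x ≥ exp x₀ (1 + x - x₀)`, `MV.eq`, `pv_loc`. `loss`: `MV.tr`, `trL_add_const`. `jf_lo`: `jf_gram`, `vol`, `log_det`. Averages: `fq_cont`, `jf_cont`, `pv_cont`, `ContinuousOn.circleIntegrable`, `circleAverage_sum`, `circleAverage_mono`. `aF_bd`: `Real.abs_circleAverage_le_circleAverage_abs` or `intervalIntegral.norm_integral_le_of_norm_le_const`. -/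

open Metric Set Filter Topology Complex MeasureTheory
open scoped ContDiff

noncomputable section

namespace Vale.Agent.P272

variable {n : ℕ} {X : Type} [TopologicalSpace X] {A : Atl n X}

variable {ρ : A.Pot} {v : A.LV} {ε' K C : ℝ} {φ : X → ℝ} {g : Met A} {w : Vol g}
  {G : ℂ × E n → X} {r : ℝ}

lemma hgain_ma (l x₀ : ℝ) {V : L n} (hV : V.det ≠ 0) :
    n * Real.exp x₀ * (1 - x₀ + (l + Real.log (‖V.det‖ ^ 2)) / n) ≤ maR l V := by
  have h0 : 0 < ‖V.det‖ ^ 2 := pow_pos (norm_pos_iff.2 hV) 2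
  rw [maR, Real.rpow_def_of_pos (mul_pos (Real.exp_pos l) h0),
    Real.log_mul (Real.exp_pos l).ne' h0.ne', Real.log_exp, mul_one_div, mul_assoc]
  refine mul_le_mul_of_nonneg_left ?_ (Nat.cast_nonneg n)
  generalize (l + Real.log (‖V.det‖ ^ 2)) / n = x
  have h1 := Real.add_one_le_exp (x - x₀)
  calc Real.exp x₀ * (1 - x₀ + x) ≤ Real.exp x₀ * Real.exp (x - x₀) :=
        mul_le_mul_of_nonneg_left (by linarith) (Real.exp_pos _).le
    _ = Real.exp x := by rw [← Real.exp_add, add_sub_cancel]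

lemma hgain_fq (θ : A.Pot) (hG : A.Bs G (closedBall 0 r)) (e : E n) :
    ContinuousOn (fun z => θ.fq G z e) (sphere 0 r) := fun z hz =>
  (θ.fq_cont (hG z (sphere_subset_closedBall hz)).1 e).continuousWithinAt

lemma hgain_sm {φ : X → ℝ} (h : A.Sm φ) (hG : A.Bs G (closedBall 0 r)) :
    ContinuousOn (fun z => φ (G (z, 0))) (sphere 0 r) := fun z hz =>
  ((pv_cont h).continuousAt.comp
    (hG z (sphere_subset_closedBall hz)).1.ctr.holAt.1).continuousWithinAt

theorem gain (hn : 1 ≤ n) (hM : MV ρ v ε' φ K C g w) {ε η B β : ℝ} {ψ b : X → ℝ}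
    (hb : Atl.Bar ρ v ε η B β ψ b) (hr : 0 ≤ r) (hG : A.Bs G (closedBall 0 r)) (x₀ : ℝ) :
    n * Real.exp x₀ * (1 - x₀ + (-B + Real.circleAverage
      (fun z => w.jf G z - φ (G (z, 0)) - n * Real.log K - η * ψ (G (z, 0))) 0 r) / n) ≤
      ∑ i, Real.circleAverage (fun z => ((ρ.cmul 2).addSm hb.smb).fq G z (eb i)) 0 r := by
  have n0 : (0 : ℝ) < n := by exact_mod_cast hn
  have hJ : ContinuousOn (fun z => w.jf G z - φ (G (z, 0)) - n * Real.log K - η * ψ (G (z, 0)))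
      (sphere 0 r) :=
    ((ContinuousOn.sub (fun z hz => (w.jf_cont hG (sphere_subset_closedBall hz)).continuousWithinAt)
      (hgain_sm hM.sm hG)).sub continuousOn_const).sub (continuousOn_const.mul (hgain_sm hb.smψ hG))
  have hpt : ∀ z ∈ sphere (0 : ℂ) |r|, n * Real.exp x₀ * (1 - x₀ + -B / n) + Real.exp x₀ •
      (w.jf G z - φ (G (z, 0)) - n * Real.log K - η * ψ (G (z, 0))) ≤
        ∑ i, ((ρ.cmul 2).addSm hb.smb).fq G z (eb i) := by
    intro z hz
    rw [abs_of_nonneg hr] at hz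
    have hk := (A.ch_in (G (z, 0))).1
    have h1 := (hgain_ma _ x₀
      (det_ne ((hG z (sphere_subset_closedBall hz)).2 _ hk))).trans (hb.ma _ _ _ hk)
    refine le_trans (le_of_eq ?_) h1
    rw [Vol.jf, hM.eq, pv_loc φ hk, smul_eq_mul]
    field_simp
    ring
  have h2 := Real.circleAverage_mono ((continuousOn_const.add
    (hJ.const_smul (Real.exp x₀))).circleIntegrable hr) ((continuousOn_finsetSum Finset.univ
      fun i _ => hgain_fq ((ρ.cmul 2).addSm hb.smb) hG (eb i)).circleIntegrable hr)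
    (f₁ := fun z => n * Real.exp x₀ * (1 - x₀ + -B / n) + Real.exp x₀ •
      (w.jf G z - φ (G (z, 0)) - n * Real.log K - η * ψ (G (z, 0)))) hpt
  have h3 := Real.circleAverage_fun_add (circleIntegrable_const
    (n * Real.exp x₀ * (1 - x₀ + -B / n)) 0 r) ((hJ.const_smul (Real.exp x₀)).circleIntegrable hr)
  rw [← Real.circleAverage_fun_sum fun i _ => (hgain_fq _ hG _).circleIntegrable hr]
  refine le_trans (le_of_eq ?_) (h3.symm.le.trans h2)
  rw [Real.circleAverage_const, Real.circleAverage_smul, smul_eq_mul]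
  field_simp
  ring

theorem loss (hM : MV ρ v ε' φ K C g w) (hr : 0 ≤ r) (hG : A.Bs G (closedBall 0 r)) {η : ℝ}
    (hη : η ≤ 1 / 2) (h : ∀ z, ‖z‖ = r → ‖g.Gr G z - 1‖ ≤ η) :
    ∑ i, (Real.circleAverage (fun z => (v.addSm hM.sm).toPot.fq G z (eb i)) 0 r -
      ε' * Real.circleAverage (fun z => ρ.fq G z (eb i)) 0 r) ≤ n / K + C * η := by
  have c1 := hgain_fq (v.addSm hM.sm).toPot hG
  have c2 := fun e => (hgain_fq ρ hG e).const_smul ε'
  have e1 : ∀ i : Fin n, Real.circleAverage (fun z => (v.addSm hM.sm).toPot.fq G z (eb i)) 0 r -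
      ε' * Real.circleAverage (fun z => ρ.fq G z (eb i)) 0 r = Real.circleAverage
        (fun z => (v.addSm hM.sm).toPot.fq G z (eb i) - ε' • ρ.fq G z (eb i)) 0 r := fun i => by
    rw [← smul_eq_mul ε', ← Real.circleAverage_smul]
    exact (Real.circleAverage_fun_sub ((c1 _).circleIntegrable hr)
      ((c2 _).circleIntegrable hr)).symm
  have c3 : ∀ i : Fin n, ContinuousOn
      (fun z => (v.addSm hM.sm).toPot.fq G z (eb i) - ε' • ρ.fq G z (eb i)) (sphere 0 r) :=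
    fun i => (c1 _).sub (c2 _)
  simp only [e1]
  rw [← Real.circleAverage_fun_sum fun i _ => (c3 i).circleIntegrable hr]
  refine Real.circleAverage_mono_on_of_le_circle
    ((continuousOn_finsetSum _ fun i _ => c3 i).circleIntegrable hr) fun z hz => ?_
  rw [abs_of_nonneg hr] at hz
  have h1 := h z (mem_sphere_zero_iff_norm.1 hz)
  have h2 := hM.tr _ _ _ (Atl.in_ch (G (z, 0)) (by norm_num)).2 (h1.trans hη)
  rw [funext (hM.eq _), trL_add_const] at h2
  simp only [Finset.sum_sub_distrib, smul_eq_mul, ← Finset.mul_sum]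
  exact h2.trans (add_le_add_right (mul_le_mul_of_nonneg_left h1 (zero_le_one.trans hM.C1)) _)

theorem jf_lo (w : Vol g) : ∃ η₀ : ℝ, 0 < η₀ ∧ η₀ ≤ 1 / 2 ∧ ∀ (G : ℂ × E n → X) (r : ℝ), 0 ≤ r →
    A.Bs G (closedBall 0 r) → (∀ z, ‖z‖ = r → ‖g.Gr G z - 1‖ ≤ η₀) →
    -1 ≤ Real.circleAverage (w.jf G) 0 r := by
  obtain ⟨C, hC, hl⟩ := log_det n
  have hC0 : 0 < C := by linarith
  refine ⟨min (1 / 2) (1 / C), lt_min (by norm_num) (by positivity), min_le_left _ _,
    fun G r hr hG h => ?_⟩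
  rw [← Real.circleAverage_const (-1 : ℝ) 0 r]
  refine Real.circleAverage_mono (circleIntegrable_const _ _ _) (w.jf_int hr hG) fun z hz => ?_
  rw [abs_of_nonneg hr] at hz
  have h1 := h z (mem_sphere_zero_iff_norm.1 hz)
  have hj : A.In (A.ch (G (z, 0))) 4 (G (z, 0)) := Atl.in_ch _ (by norm_num)
  have h2 := (abs_le.1 (hl _ (h1.trans (min_le_left _ _))).2).1
  have h3 := mul_le_mul_of_nonneg_left (h1.trans (min_le_right _ _)) hC0.le
  rw [mul_one_div_cancel hC0.ne'] at h3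
  rw [w.jf_gram hG (sphere_subset_closedBall hz) hj]
  linarith [w.vol (A.ch (G (z, 0))) _ hj.2]

theorem aF_bd (ρ : A.Pot) (B : ℝ) : ∃ H : ℝ, 1 ≤ H ∧ ∀ (b : X → ℝ) (j : Fin A.N) (r₀ : ℝ)
    (f : ℂ → X), (∀ x, |b x| ≤ B) → A.Near r₀ → (∀ z ∈ ball (0 : ℂ) (1 / 2), A.HolAt f z) →
    A.In j 1 (f 0) → |aF ρ b j r₀ f| ≤ H := by
  obtain ⟨C, hC, hu⟩ := Atl.fam_bound ρ.sm
  refine ⟨2 * C + |B|, by linarith [abs_nonneg B], fun b j r₀ f hb hN hf hj => ?_⟩
  have hpt : ∀ z ∈ sphere (0 : ℂ) |r₀|, |2 * ρ.u j (A.e j (f z)) + b (f z)| ≤ 2 * C + |B| := by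
    intro z hz
    rw [abs_of_pos hN.1, mem_sphere_zero_iff_norm] at hz
    have h1 := hN.2.2 j f hf hj z (by linarith [hN.1])
    have h2 := abs_le.1 (hu j _ (h1.2.trans (by norm_num))).1
    have h3 := abs_le.1 ((hb (f z)).trans (le_abs_self B))
    exact abs_le.2 ⟨by linarith [h2.1, h3.1], by linarith [h2.2, h3.2]⟩
  unfold aF
  by_cases hi : CircleIntegrable (fun z => 2 * ρ.u j (A.e j (f z)) + b (f z)) 0 r₀
  · refine abs_le.2 ⟨?_, Real.circleAverage_mono_on_of_le_circle hi fun z hz => (abs_le.1 (hpt z hz)).2⟩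
    rw [← Real.circleAverage_const (-(2 * C + |B|)) 0 r₀]
    exact Real.circleAverage_mono (circleIntegrable_const _ _ _) hi fun z hz => (abs_le.1 (hpt z hz)).1
  · rw [Real.circleAverage.integral_undef hi, abs_zero]
    linarith [abs_nonneg B]

end Vale.Agent.P272
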