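import Vale.Agent.P272.F.G.Har
import Vale.Agent.P272.F.H.Sp

/-! P272 F/H/Key (task). Helper names start with `hkey_`.
Plan. `f = ctr G`, `jl = jf G - φ ∘ f - n log K`, `lap jl = 4 v.toPot.sp f` (`lap_jf` with `(v.addSm h.sm).toPot`, `lap_sm`, `pv_levi_add`), `Y = -avg_{r₀} (ψ ∘ f) ≥ 0`, `T = ρ.T f r`, `ε' = ε η / (2 + η)`. (1) `avg_{r₀} jl ≥ jl 0 - C₀` (`green`, `le_grn`, `NB`) and `jl 0 ≥ Jf - 1 - φ x - n log K`. (2) For `η ≠ 0`: `u = jl + ψ ∘ f`, `lap u ≥ 4 (ε + β ψ) ρ.sp` (`cur`), `avg_r u - avg_{r₀} u ≤ -Jf + C₀ + Y` (`ψ ≤ 0`, `φ x` is the minimum), `grn (4 ρ.sp) r₀ r ≥ T - C₀` (`grn_split`, `grn_le`), `β grn (4 (-ψ) ρ.sp) r₀ r ≤ 4 β S c (Y + S') ≤ Y + 1` by `grn_harnack` (or `exp_lo`, F/G/Har) with `S' = (|B| + C_θ) S` (`qps`, `le_pos`), `c₁ = 4 c (1 + |B| + C_θ)`. So `2 Y ≥ Jf + ε T - C₀ - ε C₀ - 1`, and `η ε / 2 = (1 + η / 2) ε'`. `C₂ = 1 + C₀ + η (C₀ + ε C₀ + 1) / 2`. -/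

open Metric Set Filter Topology Complex MeasureTheory
open scoped ContDiff

noncomputable section

namespace Vale.Agent.P272

variable {n : ℕ} {X : Type} [TopologicalSpace X] {A : Atl n X}

theorem hkey_int {u : ℂ → ℝ} {s r : ℝ} (h0 : 0 ≤ s) (h1 : s ≤ r)
    (h : ∀ z ∈ closedBall (0 : ℂ) r, ContDiffAt ℝ 2 u z) : CircleIntegrable u 0 s :=
  ContinuousOn.circleIntegrable h0 fun z hz => (h z (closedBall_subset_closedBall h1
    (sphere_subset_closedBall hz))).continuousAt.continuousWithinAt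

theorem hkey_num {η ε T J m₀ a₀ a Y D C₀ P : ℝ} (hη : 0 ≤ η) (h1 : m₀ - D ≤ a₀)
    (h2 : η * (ε * T - ε * C₀ - 1 + m₀ - a - D) ≤ η * (2 * -Y)) (h3 : J ≤ m₀ - a)
    (h4 : J - 1 - P ≤ m₀) :
    -P - (1 + D + η / 2 * (ε * C₀ + 1 + D)) + (1 + η / 2) * (J + ε * η / (2 + η) * T) ≤
      a₀ - η * Y := by
  have e : (1 + η / 2) * (ε * η / (2 + η) * T) = η / 2 * (ε * T) := by
    field_simp
  nlinarith [mul_le_mul_of_nonneg_left h3 hη]

theorem key {ρ : A.Pot} (hρ : ρ.Pos) (v : A.LV) {r₀ C₀ ε η : ℝ} (B : ℝ) (h0 : 0 < r₀)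
    (h1 : r₀ ≤ 1 / 8) (hN : Atl.NB v.toPot ρ C₀) (hε : 0 ≤ ε) (hη : 0 ≤ η) :
    ∃ c₁ C₂ : ℝ, 1 ≤ c₁ ∧ ∀ (φ : X → ℝ) (K C : ℝ) (g : Met A) (w : Vol g),
      MV ρ v (ε * η / (2 + η)) φ K C g w → ∀ (β : ℝ) (ψ b : X → ℝ), 0 < β →
      Atl.Bar ρ v ε η B β ψ b → ∀ (G : ℂ × E n → X) (r S : ℝ), 1 / 2 ≤ r → r ≤ 1 →
      A.Bs G (closedBall 0 r) → (∀ x, φ (G (0, 0)) ≤ φ x) →
      -1 ≤ Real.circleAverage (w.jf G) 0 r → 1 ≤ S → (∀ z, ‖z‖ ≤ r → ρ.sp (ctr G) z ≤ S) →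
      β * c₁ * S ^ 2 ≤ 1 →
      -φ (G (0, 0)) - n * Real.log K - C₂ + (1 + η / 2) * Jt w ρ (ε * η / (2 + η)) G r ≤
        Real.circleAverage
          (fun z => w.jf G z - φ (G (z, 0)) - n * Real.log K - η * ψ (G (z, 0))) 0 r₀ := by
  obtain ⟨D, hD, hθ⟩ := v.toPot.le_pos hρ
  have B0 := abs_nonneg B
  have C0 := hN.1
  refine ⟨4 * (1 + |B| + D), 1 + D * C₀ + η / 2 * (ε * C₀ + 1 + D * C₀), by linarith,
    fun φ K C g w hM β ψ b hβ hb G r S r1 r2 hG hmin havg hS hsp hc => ?_⟩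
  have rr : r₀ ≤ r := by linarith
  have hol : ∀ z ∈ closedBall (0 : ℂ) r, A.Hol (ctr G) z := fun z hz => (hG z hz).1.ctr
  have hk : ∀ z, ctr G z ∈ (A.e (A.ch (ctr G z))).source := fun z => (Atl.ch_in _).1
  have j1 := fun z hz => lap_jf (v.addSm hM.sm).toPot w hM.eq hG (z := z) hz
  have f1 := fun z hz => lap_sm hM.sm (hol z hz) (hk z)
  have p1 := fun z hz => lap_sm hb.smψ (hol z hz) (hk z)
  have m1 : ∀ z ∈ closedBall (0 : ℂ) r,
      ContDiffAt ℝ 2 (fun z => w.jf G z - φ (ctr G z) - n * Real.log K) z := fun z hz =>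
    ((j1 z hz).1.sub (f1 z hz).1).sub contDiffAt_const
  have m2 : ∀ z ∈ closedBall (0 : ℂ) r,
      lap (fun z => w.jf G z - φ (ctr G z) - n * Real.log K) z = 4 * v.toPot.sp (ctr G) z :=
    fun z hz => by
      have e : (v.addSm hM.sm).toPot.sp (ctr G) z = v.toPot.sp (ctr G) z + _ :=
        pv_levi_add (v.toPot.at2 (hk z)) (hM.sm.at2 (hk z)) _
      simp only [sub_eq_add_neg (_ - _)]
      rw [lap_add_const, lap_sub (j1 z hz).1 (f1 z hz).1, (j1 z hz).2, (f1 z hz).2, e]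
      ring
  have m3 : ∀ z ∈ closedBall (0 : ℂ) r,
      lap (fun z => w.jf G z - φ (ctr G z) - n * Real.log K) z + lap (fun z => ψ (ctr G z)) z =
        4 * levi (fun y => v.l (A.ch (ctr G z)) y + A.loc ψ (A.ch (ctr G z)) y)
          (A.e (A.ch (ctr G z)) (ctr G z)) (A.dv (A.ch (ctr G z)) (ctr G) z) := fun z hz => by
    rw [m2 z hz, (p1 z hz).2, ← mul_add]
    exact congrArg _ (pv_levi_add (v.toPot.at2 (hk z)) (hb.smψ.at2 (hk z)) _).symm
  have mb : ∀ {z : ℂ}, ‖z‖ < r → z ∈ closedBall (0 : ℂ) r := fun hz =>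
    mem_closedBall_zero_iff.2 hz.le
  have s1 : ∀ z, ‖z‖ < r₀ → ρ.sp (ctr G) z ≤ C₀ := fun z hz => (abs_le.1 (hN.2 (ctr G)
    (fun z hz => (hol z (mb ((mem_ball_zero_iff.1 hz).trans_le r1))).holAt) z (by linarith)).2).2
  have hl : ∀ z, ‖z‖ < r → |lap (fun z => w.jf G z - φ (ctr G z) - n * Real.log K) z| ≤
      4 * D * ρ.sp (ctr G) z := fun z hz => by
    rw [m2 z (mb hz), abs_mul, abs_of_pos four_pos, mul_assoc]
    exact mul_le_mul_of_nonneg_left (hθ _ _ _ (hk z)) four_pos.le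
  have e0 := exp_lo0 h0.le (by linarith) (by linarith) (by linarith)
    (fun z hz => m1 z (closedBall_subset_closedBall rr hz)) s1 fun z hz => hl z (hz.trans_le rr)
  have bS : 0 ≤ β * S := by positivity
  have b1 : 4 * β * S ≤ 1 := by
    nlinarith [mul_nonneg bS (show 0 ≤ (1 + |B| + D) * S - 1 by nlinarith)]
  have b2 : 4 * β * S * ((|B| + D) * S) ≤ 1 := by nlinarith [mul_nonneg bS (show 0 ≤ S by linarith)]
  have e1 : η * (ε * ρ.T (ctr G) r - ε * C₀ - 1 + (w.jf G 0 - φ (ctr G 0) - n * Real.log K) -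
      Real.circleAverage (fun z => w.jf G z - φ (ctr G z) - n * Real.log K) 0 r - D * C₀) ≤
      η * (2 * -Real.circleAverage (fun z => ψ (ctr G z)) 0 r₀) := by
    rcases eq_or_ne η 0 with rfl | hne
    · simp
    refine mul_le_mul_of_nonneg_left (exp_lo h0 rr r2 (by linarith) B0 hε hβ.le (by linarith)
      (by linarith) (fun z hz => (p1 z hz).1) m1
      (fun z hz => (ρ.sp_cont (hol z hz)).continuousWithinAt) (fun z _ => hb.neg _)
      (fun z hz => hsp z hz.le) s1 (fun z hz => ?_) (fun z hz => ?_) hl b1 b2) hη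
    · rw [m3 z (mb hz)]
      exact mul_le_mul_of_nonneg_left ((hb.cur _ _ _ (hk z)).resolve_right hne) four_pos.le
    · rw [m3 z (mb hz)]
      exact mul_le_mul_of_nonneg_left ((mul_le_mul_of_nonneg_right (neg_le_neg (le_abs_self B))
        (Atl.Pot.sp_nonneg hρ _ z)).trans (hb.qps _ _ _ (hk z))) four_pos.le
  have r0 : 0 ≤ r := by linarith
  have iJ := hkey_int r0 le_rfl fun z hz => (j1 z hz).1
  have iφ := hkey_int r0 le_rfl fun z hz => (f1 z hz).1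
  have e2 := Real.circleAverage_mono (circleIntegrable_const (φ (G (0, 0))) 0 r) iφ
    fun z _ => hmin _
  have e3 := Real.circleAverage_fun_sub (iJ.sub iφ) (circleIntegrable_const (n * Real.log K) 0 r)
  rw [Real.circleAverage_sub iJ iφ, Real.circleAverage_const] at e3
  rw [Real.circleAverage_const] at e2
  have e4 := Real.circleAverage_fun_sub (hkey_int h0.le rr m1)
    (hkey_int h0.le rr fun z hz => (contDiffAt_const (c := η)).mul (p1 z hz).1)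
  have e5 : Real.circleAverage (fun z => η * ψ (ctr G z)) 0 r₀ =
      η * Real.circleAverage (fun z => ψ (ctr G z)) 0 r₀ := Real.circleAverage_fun_smul (a := η)
  rw [e5] at e4
  have e6 : φ (ctr G 0) = φ (G (0, 0)) := rfl
  have := hkey_num (J := w.Jf G r) (P := φ (G (0, 0)) + n * Real.log K) hη e0 e1
    (by rw [Vol.Jf]; simp only [Pi.sub_apply] at e3; linarith) (by rw [Vol.Jf]; linarith)
  refine le_of_eq_of_le ?_ (this.trans_eq e4.symm)
  rw [Jt]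
  ring

end Vale.Agent.P272
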