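import Vale.Agent.P272.F.H.Defs
import Vale.Agent.P272.F.G.JB

/-! P272 F/H/Lap (task). Helper names start with `hlap_`.
Plan. `lap_comp`: as `pv_levi_comp` (F/P/LComp) for a curve; or reduce to it. `lap_log`: `log ‖d‖^2` is locally `2 re (log (d / d z))` plus a constant (see `levi_log` in F/Kit/Her; `lap_comp` with `n = 1` is possible), or `AnalyticAt.harmonicAt_log_norm` with `laplacian_eq_iteratedFDeriv_complexPlane`. `bs_nhds`: units are open, `fr_analytic`, `unit_chg`. `lap_jf`: near `z`, `jf = θ.u k ∘ e k ∘ ctr G + c + log ‖det (fr k G ·)‖^2` (`jf_eq` with `S = {z'}`), `analyticAt_det`, `det_ne`. -/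

open Metric Set Filter Topology Complex MeasureTheory
open scoped ContDiff

noncomputable section

namespace Vale.Agent.P272

variable {n : ℕ} {X : Type} [TopologicalSpace X] {A : Atl n X}

theorem lap_congr {u v : ℂ → ℝ} {z : ℂ} (h : u =ᶠ[𝓝 z] v) : lap u z = lap v z := by
  exact dL_congr h 1 I

theorem lap_add {u v : ℂ → ℝ} {z : ℂ} (hu : ContDiffAt ℝ 2 u z) (hv : ContDiffAt ℝ 2 v z) :
    lap (fun z => u z + v z) z = lap u z + lap v z := by
  exact dL_add hu hv 1 I

theorem lap_sub {u v : ℂ → ℝ} {z : ℂ} (hu : ContDiffAt ℝ 2 u z) (hv : ContDiffAt ℝ 2 v z) :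
    lap (fun z => u z - v z) z = lap u z - lap v z := by
  have h := lap_add hu (contDiffAt_const (c := (-1 : ℝ)).mul hv)
  rw [lap, lap, lap, klev_two, klev_two] at h
  simp only [neg_one_mul, ← sub_eq_add_neg] at h
  rw [lap, lap, lap, h]
  ring

theorem lap_cmul (c : ℝ) (u : ℂ → ℝ) (z : ℂ) : lap (fun z => c * u z) z = c * lap u z := by
  rw [lap, lap, klev_two, klev_two, mul_add]

theorem lap_add_const (u : ℂ → ℝ) (c : ℝ) (z : ℂ) : lap (fun z => u z + c) z = lap u z := by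
  have e : fderiv ℝ (fun z => u z + c) = fderiv ℝ u := funext fun z => fderiv_add_const c
  rw [lap, lap, e]

theorem lap_comp {w : E n → ℝ} {y : ℂ → E n} {z : ℂ} (hy : AnalyticAt ℂ y z)
    (hw : ContDiffAt ℝ 2 w (y z)) : lap (fun z => w (y z)) z = 4 * levi w (y z) (deriv y z) := by
  have h := dL_hol hy hw 1
  rw [smul_eq_mul, mul_one] at h
  exact h

theorem lap_log {d : ℂ → ℂ} {z : ℂ} (hd : AnalyticAt ℂ d z) (h0 : d z ≠ 0) :
    ContDiffAt ℝ 2 (fun z => Real.log (‖d z‖ ^ 2)) z ∧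
      lap (fun z => Real.log (‖d z‖ ^ 2)) z = 0 := by
  have h := dL_log hd h0 1
  rw [smul_eq_mul, mul_one] at h
  exact ⟨(((hd.contDiffAt (n := 2)).restrict_scalars ℝ).norm_sq ℂ).log
    (pow_ne_zero 2 (norm_ne_zero_iff.2 h0)), h⟩

end Vale.Agent.P272
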