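import Vale.Agent.P272.MainB
import Vale.Agent.P272.MainA
import Vale.Agent.P272.F.H.Defs
import Vale.Agent.P272.Frame

/-! P272 F/H/MV1 (task). Helper names start with `hmv1_`.
Plan. `rtr T = re (trace)` (`LinearMap.trace_eq_sum_inner` with `EuclideanSpace.basisFun`, `LinearMap.trace_mul_comm`), `qf_conj`. `det_conc`: `exists_frame` gives `S` with `star S * P * S = 1` (lower bound by compactness of the sphere); `n = rtr 1 = ∑ χ a * hs (star (V a) * S)`, `det_le_hs`, `det_mul'`, `norm_det_star`, `‖det S‖^2 ‖det P‖ = 1`. -/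

open Metric Set Filter Topology Complex MeasureTheory
open scoped ContDiff

noncomputable section

namespace Vale.Agent.P272

variable {n : ℕ} {X : Type} [TopologicalSpace X] {A : Atl n X}

theorem hmv1_eq (T : L n) : rtr T = (LinearMap.trace ℂ (E n) (T : E n →ₗ[ℂ] E n)).re := by
  rw [LinearMap.trace_eq_sum_inner _ (EuclideanSpace.basisFun (Fin n) ℂ), Complex.re_sum]
  refine Finset.sum_congr rfl fun i _ => ?_
  simp [qf, eb]

theorem hmv1_sum {ι : Type} (s : Finset ι) (T : ι → L n) (a : E n) :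
    qf (∑ i ∈ s, T i) a = ∑ i ∈ s, qf (T i) a := by
  simp only [qf, _root_.sum_apply, inner_sum, Complex.re_sum]

theorem hmv1_qf (V : L n) (a : E n) : qf (V * star V) a = ‖(star V) a‖ ^ 2 := by
  have h := qf_conj 1 (star V) a
  rwa [star_star, mul_one, qf_one] at h

theorem rtr_comm (S T : L n) : rtr (S * T) = rtr (T * S) := by
  rw [hmv1_eq, hmv1_eq]
  exact congrArg Complex.re (LinearMap.trace_mul_comm ℂ (S : E n →ₗ[ℂ] E n) (T : E n →ₗ[ℂ] E n))

theorem rtr_sub (S T : L n) : rtr (S - T) = rtr S - rtr T := by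
  simp only [rtr, qf_sub, Finset.sum_sub_distrib]

theorem rtr_smul (c : ℝ) (T : L n) : rtr ((c : ℂ) • T) = c * rtr T := by
  simp only [rtr, maina_qf, Finset.mul_sum]

theorem rtr_sum {ι : Type} (s : Finset ι) (T : ι → L n) :
    rtr (∑ a ∈ s, T a) = ∑ a ∈ s, rtr (T a) := by
  simp only [rtr, hmv1_sum]
  exact Finset.sum_comm

theorem rtr_le (T : L n) : |rtr T| ≤ n * ‖T‖ := by
  refine (Finset.abs_sum_le_sum_abs _ _).trans
    ((Finset.sum_le_card_nsmul _ _ ‖T‖ fun i _ => ?_).trans ?_)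
  · simpa [lin_eb] using qf_le T (eb i)
  · simp

theorem trL_eq {u : E n → ℝ} {y : E n} {Γ : L n} (h : ∀ a, levi u y a = qf Γ a) (V : L n) :
    trL u y V = rtr (Γ * (V * star V)) := by
  rw [← mul_assoc, rtr_comm, ← mul_assoc]
  simp only [trL, rtr, h, qf_conj]

theorem pos_lo {P : L n} (h : ∀ a, a ≠ 0 → 0 < qf P a) :
    ∃ C : ℝ, 1 ≤ C ∧ ∀ a, ‖a‖ ^ 2 ≤ C * qf P a := by
  obtain ⟨C, hC, hlo⟩ := atlb_lo (G := fun _ => P) (K := {0}) isCompact_singleton
    continuousOn_const fun _ _ => h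
  exact ⟨C + 1, by linarith, fun w => (hlo 0 rfl w).trans
    (mul_le_mul_of_nonneg_right (by linarith)
      (nonneg_of_mul_nonneg_right ((sq_nonneg _).trans (hlo 0 rfl w)) hC))⟩

theorem pos_unit {P : L n} (h : ∀ a, a ≠ 0 → 0 < qf P a) : IsUnit P := by
  obtain ⟨C, hC, hlo⟩ := pos_lo h
  exact (atlb_unit (by linarith) hlo).1

theorem det_conc (hn : 1 ≤ n) {ι : Type} (s : Finset ι) {χ : ι → ℝ} (V : ι → L n)
    (h0 : ∀ a ∈ s, 0 ≤ χ a)
    (h : ∀ b, b ≠ 0 → 0 < qf (∑ a ∈ s, (χ a : ℂ) • (V a * star (V a))) b) :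
    ∑ a ∈ s, χ a * (‖(V a).det‖ ^ 2) ^ (1 / n : ℝ) ≤
      ‖(∑ a ∈ s, (χ a : ℂ) • (V a * star (V a))).det‖ ^ (1 / n : ℝ) := by
  obtain ⟨P, hP⟩ : ∃ P, P = ∑ a ∈ s, (χ a : ℂ) • (V a * star (V a)) := ⟨_, rfl⟩
  have sa : IsSelfAdjoint P := by
    rw [hP]
    exact (star_sum s fun a => (χ a : ℂ) • (V a * star (V a))).trans
      (Finset.sum_congr rfl fun a _ => by rw [maina_star, star_mul, star_star])
  rw [← hP] at h ⊢
  obtain ⟨C, hC, hlo⟩ := pos_lo h
  obtain ⟨S, hS, hU⟩ := exists_frame sa hlo hC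
  have n0 : (0 : ℝ) < n := by exact_mod_cast hn
  have d1 : ‖S.det‖ ^ 2 * ‖P.det‖ = 1 := by
    have h2 := congrArg (fun T : L n => ‖T.det‖) hU
    simp only [det_mul', norm_mul, norm_det_star] at h2
    have h1 : (1 : L n).det = 1 := LinearMap.det_id
    rw [h1, norm_one] at h2
    rw [← h2]
    ring
  have h1 : ∀ a, (‖(V a).det‖ ^ 2) ^ (1 / n : ℝ) ≤
      ‖P.det‖ ^ (1 / n : ℝ) / n * hs (star (V a) * S) := by
    intro a
    have h2 := det_le_hs hn (star (V a) * S)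
    rw [det_mul', norm_mul, norm_det_star, mul_pow] at h2
    have h3 := mul_le_mul_of_nonneg_right h2 (norm_nonneg P.det)
    rw [mul_assoc, d1, mul_one] at h3
    have h4 : 0 ≤ hs (star (V a) * S) / n := div_nonneg (pv_hs_nonneg _) n0.le
    refine (Real.rpow_le_rpow (sq_nonneg _) h3 (by positivity)).trans_eq ?_
    rw [Real.mul_rpow (pow_nonneg h4 _) (norm_nonneg _), one_div,
      Real.pow_rpow_inv_natCast h4 (by omega)]
    ring
  have h2 : ∑ a ∈ s, χ a * hs (star (V a) * S) = n := by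
    have h3 : rtr (star S * P * S) = n := by
      rw [hU]
      simp [rtr, qf_one, lin_eb]
    rw [← h3]
    simp only [rtr, qf_conj]
    simp only [hP, hmv1_sum, maina_qf, hmv1_qf, hs, Finset.mul_sum]
    rw [Finset.sum_comm]
    rfl
  calc _ ≤ ∑ a ∈ s, ‖P.det‖ ^ (1 / n : ℝ) / n * (χ a * hs (star (V a) * S)) :=
        Finset.sum_le_sum fun a ha => by
          have := mul_le_mul_of_nonneg_left (h1 a) (h0 a ha)
          linarith
    _ = _ := by rw [← Finset.mul_sum, h2, div_mul_cancel₀ _ n0.ne']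

end Vale.Agent.P272
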