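import Vale.Agent.P272.F.H.MV1
import Vale.Agent.P272.F.G.Grp
import Vale.Agent.P272.Hol4

/-! P272 F/H/Pick (task). Helper names start with `hpick_`.
Plan. `grp_pick` with `T m = I^m • 1` (unitary); `trL Ξ u U = trL Ξ u 1` for unitary `U` (`levi_qf`, `trL_eq`); `e = δ⁻¹ • u`. -/

open Metric Set Filter Topology Complex MeasureTheory
open scoped ContDiff

noncomputable section

namespace Vale.Agent.P272

variable {n : ℕ} {X : Type} [TopologicalSpace X] {A : Atl n X}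

theorem pick (hn : 1 ≤ n) {Ξ : E n → ℝ} {δ γ : ℝ} (hδ : 0 < δ)
    (hc : ∀ u, ‖u‖ ≤ δ → ContDiffAt ℝ 2 Ξ u)
    (h : ∀ u, ‖u‖ < δ → n * γ ≤ ∑ i, levi Ξ u (eb i)) :
    ∃ e : E n, ‖e‖ ≤ 1 ∧ 4 * (Ξ 0 + γ * δ ^ 2) ≤ ∑ m : Fin 4, Ξ (pt δ m • e) := by
  obtain ⟨u, hu, h1⟩ := grp_pick hn (κ := Fin 4) (T := fun m => (I ^ (m : ℕ)) • (1 : L n))
    (fun m => grp_uni fun a => by simp [norm_smul]) hδ hc (c := γ) fun u hu U hU => by
      obtain ⟨Γ, -, hΓ⟩ := levi_qf (hc u hu.le)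
      have h2 := trL_eq hΓ 1
      rw [star_one] at h2
      rw [trL_eq hΓ, hU.2, ← mul_one (1 : L n), ← h2]
      exact h u hu
  refine ⟨((δ : ℂ)⁻¹) • u, ?_, ?_⟩
  · rw [norm_smul, hu, norm_inv, Complex.norm_real, Real.norm_of_nonneg hδ.le,
      inv_mul_cancel₀ hδ.ne']
  · have e : ∀ m : Fin 4, pt δ m • ((δ : ℂ)⁻¹ • u) = ((I ^ (m : ℕ)) • (1 : L n)) u := fun m => by
      have h0 : (δ : ℂ) ≠ 0 := Complex.ofReal_ne_zero.2 hδ.ne'
      rw [smul_smul, pt, mul_right_comm, mul_inv_cancel₀ h0, one_mul]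
      rfl
    simp only [e]
    simpa using h1

end Vale.Agent.P272
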