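import Vale.Agent.P272.F.H.Pick
import Vale.Agent.P272.F.H.DrA
import Vale.Agent.P272.F.H.DrJ
import Vale.Agent.P272.F.H.DrT
import Vale.Agent.P272.F.H.Key
import Vale.Agent.P272.F.H.Gain
import Vale.Agent.P272.F.H.Close

/-! P272 F/H/Sel (task). Helper names start with `hsel_`.
Plan. (helper64 fills this file.) `pick` for `Ξ u = aF (ctr (sh W u)) + γ Jt (sh W u) r'`, `δ = t^8`. -/

open Metric Set Filter Topology Complex MeasureTheory
open scoped ContDiff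

noncomputable section

namespace Vale.Agent.P272

variable {n : ℕ} {X : Type} [TopologicalSpace X] {A : Atl n X}

theorem hsel_num {Q P t x : ℝ} (hP : 1 ≤ P) (ht : 0 < t) (h : Q * P ^ 3 * t ≤ 1) (h0 : 0 ≤ x)
    (hx : x ≤ Q) (h16 : 16 ≤ Q) : x * P ^ 3 * t ≤ 1 ∧ x * (P * t ^ 8) ≤ 1 ∧
      x * (P ^ 2 * t ^ 8) ≤ 1 ∧ 16 * t ≤ 1 ∧ t ^ 24 ≤ t ∧ t ^ 16 ≤ 1 := by
  have h3 : 1 ≤ P ^ 3 := one_le_pow₀ hP
  have a1 : x * P ^ 3 * t ≤ 1 := le_trans (by gcongr) h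
  have a2 : 16 * t ≤ 1 := by
    have : 16 * 1 * t ≤ Q * P ^ 3 * t := by gcongr
    linarith
  have t1 : t ≤ 1 := by linarith
  have a3 : t ^ 8 ≤ t := pow_le_of_le_one ht.le t1 (by norm_num)
  have a4 : P ^ 2 * t ^ 8 ≤ P ^ 3 * t :=
    mul_le_mul (pow_le_pow_right₀ hP (by norm_num)) a3 (by positivity) (by positivity)
  have a5 : P * t ^ 8 ≤ P ^ 2 * t ^ 8 :=
    mul_le_mul_of_nonneg_right (le_self_pow₀ hP (by norm_num)) (by positivity)
  have a6 := mul_le_mul_of_nonneg_left a4 h0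
  have a7 := mul_le_mul_of_nonneg_left a5 h0
  exact ⟨a1, by linarith, by linarith, a2, pow_le_of_le_one ht.le t1 (by norm_num),
    pow_le_one₀ ht.le t1⟩

theorem hsel_gain {N K c a p J S r₀ C₂ B : ℝ} (hN : 1 ≤ N) (hK : 1 ≤ K) (hc : 1 ≤ c)
    (h1 : -p - N * Real.log K - C₂ + c * (J - 1) ≤ a)
    (h2 : ∀ x₀, N * Real.exp x₀ * (1 - x₀ + (-B + a) / N) ≤ S) :
    N * (r₀ ^ 2 * c * Real.exp ((-p - (C₂ + B + c + N * c)) / N) / (N * K) * (1 + J)) ≤
      r₀ ^ 2 * S := by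
  have N0 : 0 < N := by linarith
  have K0 : 0 < K := by linarith
  have h3 := h2 ((-p - (C₂ + B + c + N * c)) / N - Real.log K)
  rw [Real.exp_sub, Real.exp_log K0] at h3
  set e := Real.exp ((-p - (C₂ + B + c + N * c)) / N) with he
  have e0 : 0 < e := Real.exp_pos _
  have h4 : c * (1 + J) ≤
      N * (1 - ((-p - (C₂ + B + c + N * c)) / N - Real.log K) + (-B + a) / N) := by
    have : N * (1 - ((-p - (C₂ + B + c + N * c)) / N - Real.log K) + (-B + a) / N) =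
        N + (p + (C₂ + B + c + N * c)) + N * Real.log K + (-B + a) := by
      field_simp
      ring
    rw [this]
    nlinarith
  have h5 := mul_le_mul_of_nonneg_left h4 (div_pos e0 K0).le
  have h6 : e / K * (c * (1 + J)) ≤ S := by linarith
  calc _ = r₀ ^ 2 * (e / K * (c * (1 + J))) := by field_simp
    _ ≤ _ := mul_le_mul_of_nonneg_left h6 (sq_nonneg _)

theorem sel [T2Space X] (hn : 1 ≤ n) {ρ : A.Pot} (hρ : ρ.Pos) (v : A.LV) {r₀ C₀ ε η : ℝ} (B : ℝ)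
    (hN : A.Near r₀) (hB : Atl.NB v.toPot ρ C₀) (hε : 0 ≤ ε) (hη : 0 ≤ η) :
    ∃ C₃ : ℝ, ∀ (φ : X → ℝ) (K C : ℝ) (g : Met A) (w : Vol g),
      MV ρ v (ε * η / (2 + η)) φ K C g w → ∃ C' : ℝ, 1 ≤ C' ∧
      ∀ (β : ℝ) (ψ b : X → ℝ) (F W : ℂ × E n → X) (r Λ t P r' γ : ℝ) (j : Fin A.N), 0 < β →
      Atl.Bar ρ v ε η B β ψ b → g.Gd F r Λ (t ^ 24) → 3 / 4 ≤ r → 0 < t → g.DS F W r Λ t P →
      C' * P ^ 3 * t ≤ 1 → β * C' * Λ ^ 4 ≤ 1 → (∀ x, φ (F (0, 0)) ≤ φ x) → A.In j 1 (F (0, 0)) →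
      r - 4 * t ^ 24 ≤ r' → r' < r - 3 * t ^ 24 → 0 ≤ γ → ∃ e : E n, ‖e‖ ≤ 1 ∧
        4 * (aF ρ b j r₀ (ctr F) + γ * Jt w ρ (ε * η / (2 + η)) F r + t ^ 16 *
          (r₀ ^ 2 * (1 + η / 2) * Real.exp ((-φ (F (0, 0)) - C₃) / n) / (n * K) *
            (1 + Jt w ρ (ε * η / (2 + η)) F r) - γ / (2 * (K / 4)))) ≤
        ∑ m : Fin 4, (aF ρ b j r₀ (ctr (sh W (pt (t ^ 8) m • e))) +
          γ * Jt w ρ (ε * η / (2 + η)) (sh W (pt (t ^ 8) m • e)) r') := by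
  obtain ⟨c₁, C₂, hc₁, hkey⟩ := key hρ v B hN.1 hN.2.1 hB hε hη
  refine ⟨C₂ + B + (1 + η / 2) + n * (1 + η / 2), fun φ K C g w hM => ?_⟩
  obtain ⟨ε', hε'⟩ : ∃ ε', ε' = ε * η / (2 + η) := ⟨_, rfl⟩
  rw [← hε'] at hM hkey ⊢
  have e0 : 0 ≤ ε' := by rw [hε']; positivity
  obtain ⟨Ca, hCa, hc0⟩ := close0 w ρ e0
  obtain ⟨Cb, hCb, hc1⟩ := close1 w ρ e0
  obtain ⟨η₀, hη₀, hη1, hlo⟩ := jf_lo w
  obtain ⟨Cs, hCs, hs⟩ := ρ.sp_le g
  have K1 := hM.K1
  have C1 := hM.C1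
  have p1 : 0 ≤ 2 * K * Ca := by positivity
  have p2 : 0 ≤ 2 * K * C := by positivity
  have p3 : 0 ≤ η₀⁻¹ := by positivity
  have p4 : 0 ≤ c₁ * (4 * Cs) ^ 2 := by positivity
  obtain ⟨Q, hQ⟩ : ∃ Q, Q = 2 * K * Ca + 2 * K * C + η₀⁻¹ + c₁ * (4 * Cs) ^ 2 + Ca + Cb + 16 :=
    ⟨_, rfl⟩
  refine ⟨Q, by linarith, fun β ψ b F W r Λ t P r' γ j hβ hb hG hr ht hD hP hβΛ hmin hj r1 r2 hγ =>
    ?_⟩
  have L1 := hG.one
  have P1 : 1 ≤ P := L1.trans hD.ΛP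
  have num : ∀ {x : ℝ}, 0 ≤ x → x ≤ Q → _ := fun h0 hx => hsel_num P1 ht hP h0 hx (by linarith)
  obtain ⟨-, -, -, t1, t2, t3⟩ := num le_rfl (by linarith)
  have t8 : 0 < t ^ 8 := by positivity
  have t24 : 0 < t ^ 24 := by positivity
  have hr1 := hG.le
  have hr₀ := hN.1
  have hr₁ := hN.2.1
  have N1 : (1 : ℝ) ≤ n := by exact_mod_cast hn
  have K0 : 0 < K := by linarith
  have j0 : Jt w ρ ε' F r - t ^ 16 / (2 * K) ≤ Jt w ρ ε' W r' := by
    refine le_trans (sub_le_sub_left ?_ _)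
      (hc0 F W r Λ t P r' hG hr ht hD (num (by linarith) (by linarith)).1 r1 r2)
    have := (num p1 (by linarith)).2.2.1
    rw [le_div_iff₀ (by linarith)]
    calc _ = 2 * K * Ca * (P ^ 2 * t ^ 8) * t ^ 16 := by ring
      _ ≤ 1 * t ^ 16 := by gcongr
      _ = _ := one_mul _
  have j1 : t ^ 16 / (2 * K) ≤ 1 / 2 := by
    rw [div_le_iff₀ (by linarith)]
    linarith
  have tol0 : P * t ^ 8 ≤ η₀ := by
    have := (num p3 (by linarith)).2.1
    rw [inv_mul_le_iff₀ hη₀] at this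
    linarith
  have tol1 : C * (P * t ^ 8) ≤ n / (2 * K) := by
    have := (num p2 (by linarith)).2.1
    rw [le_div_iff₀ (by linarith)]
    linarith
  have hc : ∀ u, sh W u (0, 0) = F (0, 0) := fun u =>
    (sh_cen W u 0).trans (hD.c0 0 (by rw [norm_zero]; linarith)).1
  have hbs : ∀ u : E n, ‖u‖ < 2 * t ^ 8 → ∀ s, s ≤ r' → A.Bs (sh W u) (closedBall 0 s) :=
    fun u hu s hs => (hD.tu.bs u hu).mono (closedBall_subset_ball (by linarith))
  have hjn : ∀ u z, ‖u‖ < 2 * t ^ 8 → ‖z‖ = r₀ → sh W u (z, 0) ∈ (A.e j).source :=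
    fun u z hu hz => (hN.2.2 j (ctr (sh W u)) (fun z hz => (hbs u hu (1 / 2) (by linarith) z
      (ball_subset_closedBall hz)).1.ctr.holAt) (by rw [ctr, hc]; exact hj) z (by linarith)).1
  have hl : ∀ j y, w.ℓ j y = (v.addSm hM.sm).toPot.u j y + n * Real.log K := hM.eq
  have da := fun (u : E n) (hu : ‖u‖ < 2 * t ^ 8) =>
    drift_a ρ hb.smb hD.tu hr₀.le (by linarith) hjn hu
  have dj := fun (u : E n) (hu : ‖u‖ < 2 * t ^ 8) =>
    drift_j w _ hl hD.tu (r := r') (by linarith) r2 hu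
  have dt := fun (u : E n) (hu : ‖u‖ < 2 * t ^ 8) =>
    drift_t ρ hD.tu (r := r') (by linarith) r2 (by linarith) hu
  have dJ : ∀ u : E n, ‖u‖ < 2 * t ^ 8 →
      ContDiffAt ℝ 2 (fun u => Jt w ρ ε' (sh W u) r') u := fun u hu =>
    (dj u hu).1.add (contDiffAt_const.mul (dt u hu).1)
  refine (pick hn (Ξ := fun u => aF ρ b j r₀ (ctr (sh W u)) +
    γ * Jt w ρ ε' (sh W u) r') (γ := r₀ ^ 2 * (1 + η / 2) * Real.exp ((-φ (F (0, 0)) -
      (C₂ + B + (1 + η / 2) + n * (1 + η / 2))) / n) / (n * K) * (1 + Jt w ρ ε' F r) -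
        γ * (3 / (2 * K))) t8
    (fun u hu => (da u (by linarith)).1.add (contDiffAt_const.mul (dJ u (by linarith))))
    (fun u hu => ?_)).elim fun e ⟨he, hpk⟩ => ?_
  rotate_left
  · refine ⟨e, he, le_trans ?_ hpk⟩
    have a0 : aF ρ b j r₀ (ctr W) = aF ρ b j r₀ (ctr F) :=
      Real.circleAverage_congr_sphere fun z hz => by
        have : ‖z‖ = r₀ := by simpa [abs_of_pos hr₀] using hz
        simp only [ctr, (hD.c0 z (by linarith)).1]
    have a1 := mul_le_mul_of_nonneg_left j0 hγ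
    have a2 : γ / (2 * (K / 4)) = γ * (3 / (2 * K)) + γ * (1 / (2 * K)) := by
      field_simp
      ring
    have a3 : γ * (t ^ 16 / (2 * K)) = t ^ 16 * (γ * (1 / (2 * K))) := by ring
    rw [sh_zero, a0, a2, ← pow_mul]
    norm_num only
    linarith
  · have hu2 : ‖u‖ < 2 * t ^ 8 := by linarith
    have htol : ∀ z, ‖z‖ = r' → ‖g.Gr (sh W u) z - 1‖ ≤ P * t ^ 8 := fun z hz =>
      hD.tol u z hu2.le (by linarith) (by linarith)
    have b1 := hkey φ K C g w hM β ψ b hβ hb (sh W u) r' (Cs * (2 * Λ) ^ 2) (by linarith)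
      (by linarith) (hbs u hu2 r' le_rfl) (by rw [hc]; exact hmin)
      (hlo _ r' (by linarith) (hbs u hu2 r' le_rfl) fun z hz => (htol z hz).trans tol0)
      (one_le_mul_of_one_le_of_one_le hCs (one_le_pow₀ (by linarith)))
      (fun z hz => (le_abs_self _).trans ((hs _ z).trans (mul_le_mul_of_nonneg_left
        (hD.sp u z hu2.le (by linarith)) (by linarith)))) (by
        refine le_trans ?_ hβΛ
        calc _ = β * (c₁ * (4 * Cs) ^ 2) * Λ ^ 4 := by ring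
          _ ≤ _ := by gcongr; linarith)
    have b2 := hc1 F W r Λ t P r' hG hr ht hD (num (by linarith) (by linarith)).1 r1 r2 u hu2.le
    rw [hc] at b1
    have b3 := hsel_gain (r₀ := r₀) (J := Jt w ρ ε' F r) (c := 1 + η / 2) N1 K1 (by linarith)
      (le_trans (add_le_add_right (mul_le_mul_of_nonneg_left (by linarith) (by linarith)) _) b1)
      (gain hn hM hb hr₀.le (hbs u hu2 r₀ (by linarith)))
    have b4 := loss hM (by linarith) (hbs u hu2 r' le_rfl) (tol0.trans hη1) htol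
    have b5 : ∀ i, levi (fun u => aF ρ b j r₀ (ctr (sh W u)) + γ * Jt w ρ ε' (sh W u) r') u (eb i) =
        r₀ ^ 2 * Real.circleAverage (fun z => ((ρ.cmul 2).addSm hb.smb).fq (sh W u) z (eb i)) 0 r₀ -
          γ * r' ^ 2 * (Real.circleAverage
            (fun z => (v.addSm hM.sm).toPot.fq (sh W u) z (eb i)) 0 r' -
            ε' * Real.circleAverage (fun z => ρ.fq (sh W u) z (eb i)) 0 r') := fun i => by
      rw [pv_levi_add (da u hu2).1 (contDiffAt_const.mul (dJ u hu2)), levi_cmul, (da u hu2).2]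
      unfold Jt
      rw [pv_levi_add (dj u hu2).1 (contDiffAt_const.mul (dt u hu2).1), levi_cmul, (dj u hu2).2,
        (dt u hu2).2]
      ring
    rw [Finset.sum_congr rfl fun i _ => b5 i, Finset.sum_sub_distrib, ← Finset.mul_sum,
      ← Finset.mul_sum]
    have b6 : r' ^ 2 ≤ 1 := pow_le_one₀ (by linarith) (by linarith)
    have b7 : (n : ℝ) / K + n / (2 * K) = n * (3 / (2 * K)) := by
      field_simp
      ring
    have b8 : 0 ≤ (n : ℝ) * (3 / (2 * K)) := by positivity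
    have b9 := mul_le_mul_of_nonneg_left (b4.trans (by linarith : _ ≤ (n : ℝ) * (3 / (2 * K))))
      (by positivity : 0 ≤ γ * r' ^ 2)
    have b10 := mul_le_mul_of_nonneg_right (mul_le_mul_of_nonneg_left b6 hγ) b8
    linarith

end Vale.Agent.P272
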