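import Vale.Agent.P272.F.H.Defs
import Vale.Agent.P272.StepX1

/-! P272 F/H/StepD (task). Helper names start with `hstepd_`.
Plan. Copy the proof of `Met.stepX1` (file StepX1) with `s = 2 t^8`, `e = s⁻¹ • u`, `u = s • e`, `SV.fam`. `tu.hol`: `SV.hol` on the open set, `‖z • u‖ ≤ 2 t^8 < 2 ε`. `tolF`: `SW.tol`. `c0`: `FamV.c0`, `v0` with `zero_smul`, `sh_zero`. `cl`: `ly`, `hol_taylor` for `w` (`‖w s - w 0‖ ≤ 2 M ‖s‖ + 4 B ‖s‖^2 / ε^2 ≤ 6 M ‖s‖`), `dv_le` (`g.C Λ ≤ C P^4`). -/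

open Metric Set Filter Topology Complex MeasureTheory
open scoped ContDiff

noncomputable section

namespace Vale.Agent.P272

variable {n : ℕ} {X : Type} [TopologicalSpace X] {A : Atl n X}

theorem hstepd_num {Cg Cs c P t M ε B : ℝ} (hg : 1 ≤ Cg) (hs : 1 ≤ Cs) (hc : 1 ≤ c) (hM : 1 ≤ M)
    (hMP : M ≤ P) (ht : 0 < t) (hε : 0 < ε) (eP : 1 ≤ ε * P) (BP : B * t ^ 6 ≤ P)
    (h : (4 * Cg + 2 * Cs + c + 12) * P ^ 5 * t ≤ 1) :
    (8 * t ≤ 1 ∧ 4 * (P * t) ≤ 1 ∧ P ≤ P ^ 4 ∧ 2 * t ^ 8 < ε) ∧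
      Cg * M ^ 3 / ε * (2 * t ^ 8) ≤ 2 * Cg * (P ^ 4 * t ^ 8) ∧ B * (2 * t ^ 8) ≤ ε ^ 2 ∧
      Cs * M * (2 * t ^ 8) ≤ 1 ∧ M * (2 * Cg * (P ^ 4 * t ^ 8)) ≤ 1 / 2 ∧
      2 * Cg * (P ^ 4 * t ^ 8) ≤ 1 / 2 := by
  have hP : 1 ≤ P := hM.trans hMP
  have h5 : P ≤ P ^ 5 := le_self_pow₀ hP (by norm_num)
  have h0 : 0 < P ^ 5 * t := by positivity
  have h1 : P * t ≤ P ^ 5 * t := mul_le_mul_of_nonneg_right h5 ht.le
  have h2 : 1 * t ≤ P * t := mul_le_mul_of_nonneg_right hP ht.le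
  have h3 : 1 * (P ^ 5 * t) ≤ Cg * (P ^ 5 * t) := mul_le_mul_of_nonneg_right hg h0.le
  have h4 : 1 * (P ^ 5 * t) ≤ Cs * (P ^ 5 * t) := mul_le_mul_of_nonneg_right hs h0.le
  have h4' : 1 * (P ^ 5 * t) ≤ c * (P ^ 5 * t) := mul_le_mul_of_nonneg_right hc h0.le
  have h7 : 4 * (Cg * (P ^ 5 * t)) + 2 * (Cs * (P ^ 5 * t)) + c * (P ^ 5 * t) +
      12 * (P ^ 5 * t) ≤ 1 := by linarith
  have t1 : t ≤ 1 := by linarith
  have h8 : t ^ 8 ≤ t := pow_le_of_le_one ht.le t1 (by norm_num)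
  have h80 : 0 < t ^ 8 := by positivity
  have c1 : M * t ^ 8 ≤ P * t := mul_le_mul hMP h8 h80.le (by linarith)
  have c2 : M * (2 * Cg * (P ^ 4 * t ^ 8)) ≤ 1 / 2 := by
    have b2 := mul_le_mul_of_nonneg_left c1 (by positivity : 0 ≤ Cg * P ^ 4)
    linarith
  have a3 : P ^ 3 * t ^ 2 ≤ P ^ 5 * t :=
    mul_le_mul (pow_le_pow_right₀ hP (by norm_num)) (pow_le_of_le_one ht.le t1 (by norm_num))
      (by positivity) (by positivity)
  refine ⟨⟨by linarith, by linarith, le_self_pow₀ hP (by norm_num), ?_⟩, ?_, ?_, ?_, c2, ?_⟩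
  · by_contra b1
    have b2 := mul_le_mul_of_nonneg_right (not_lt.1 b1) (by linarith : 0 ≤ P)
    have b3 := mul_le_mul_of_nonneg_right h8 (by linarith : 0 ≤ P)
    linarith
  · have b1 : Cg * M ^ 3 / ε ≤ Cg * P ^ 4 := by
      rw [div_le_iff₀ hε, mul_assoc]
      have b3 : M ^ 3 ≤ P ^ 3 := pow_le_pow_left₀ (by linarith) hMP 3
      have b4 : P ^ 3 * 1 ≤ P ^ 3 * (ε * P) := mul_le_mul_of_nonneg_left eP (by positivity)
      exact mul_le_mul_of_nonneg_left (by linarith) (by linarith)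
    have b2 := mul_le_mul_of_nonneg_right b1 h80.le
    linarith
  · have b1 : B * t ^ 6 * t ^ 2 ≤ P * t ^ 2 := mul_le_mul_of_nonneg_right BP (by positivity)
    have b3 : P * t ^ 2 * 1 ≤ P * t ^ 2 * (ε * P) ^ 2 :=
      mul_le_mul_of_nonneg_left (one_le_pow₀ eP) (by positivity)
    have b4 : P ^ 3 * t ^ 2 * ε ^ 2 ≤ 1 / 2 * ε ^ 2 :=
      mul_le_mul_of_nonneg_right (by linarith) (by positivity)
    linarith
  · have b2 := mul_le_mul_of_nonneg_left (c1.trans h1) (by linarith : 0 ≤ Cs)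
    linarith
  · have b4 : 1 * (2 * Cg * (P ^ 4 * t ^ 8)) ≤ M * (2 * Cg * (P ^ 4 * t ^ 8)) :=
      mul_le_mul_of_nonneg_right hM (by positivity)
    linarith

theorem hstepd_der {U V : L n} {M : ℝ} {z : ℂ} {e : E n} (b1 : ‖U‖ ≤ M) (b2 : ‖V‖ ≤ M)
    (hz : ‖z‖ ≤ 1) (he : ‖e‖ ≤ 1) : ‖U e + z • V e‖ ≤ 2 * M := by
  have h0 : 0 ≤ M := (norm_nonneg _).trans b1
  have b3 := (U.le_of_opNorm_le b1 e).trans (mul_le_mul_of_nonneg_left he h0)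
  have b4 := (V.le_of_opNorm_le b2 e).trans (mul_le_mul_of_nonneg_left he h0)
  refine (norm_add_le _ _).trans ?_
  rw [norm_smul]
  have b5 := mul_le_mul hz b4 (norm_nonneg _) zero_le_one
  linarith

theorem hstepd_dir {σ : ℝ} (h0 : 0 < σ) {u : E n} (hu : ‖u‖ ≤ σ) :
    ∃ e : E n, ‖e‖ ≤ 1 ∧ u = (σ : ℂ) • e := by
  refine ⟨(σ : ℂ)⁻¹ • u, ?_, (smul_inv_smul₀ (ofReal_ne_zero.2 h0.ne') u).symm⟩
  rw [norm_smul, norm_inv, norm_real, Real.norm_of_nonneg h0.le]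
  exact (inv_mul_le_one₀ h0).2 hu

theorem hstepd_w {y w : ℂ → E n} {V : ℂ → L n} {ε M B : ℝ} {s : ℂ} (h : Fam y w V ε M B)
    (hM : 1 ≤ M) (hs : ‖s‖ < ε) (hd : ‖deriv w 0‖ ≤ 2 * M) (hB : B * ‖s‖ ≤ ε ^ 2) :
    ‖w s - w 0‖ ≤ 6 * M * ‖s‖ := by
  have hε : 0 < ε := (norm_nonneg s).trans_lt hs
  obtain ⟨-, -, b1⟩ := hol_taylor h.dw (B := B + B)
    (fun s' hs' => (norm_sub_le _ _).trans (add_le_add (h.lw s' hs') (h.lw 0 (by simpa)))) hs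
  have b2 := norm_le_insert' (w s - w 0) (s • deriv w 0)
  rw [norm_smul] at b2
  have b3 := mul_le_mul_of_nonneg_left hd (norm_nonneg s)
  have b4 : 2 * (B + B) / ε ^ 2 * ‖s‖ ^ 2 ≤ 4 * ‖s‖ := by
    rw [div_mul_eq_mul_div, div_le_iff₀ (by positivity)]
    have b5 := mul_le_mul_of_nonneg_left hB (norm_nonneg s)
    linarith
  have b6 := mul_le_mul_of_nonneg_right hM (norm_nonneg s)
  linarith

theorem Met.stepD [T2Space X] (g : Met A) : ∃ C : ℝ, 1 ≤ C ∧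
    ∀ (F W : ℂ × E n → X) (r Λ t M ε B K D P : ℝ), g.SV F W r Λ t M ε B K D P →
      C * P ^ 5 * t ≤ 1 → g.DS F W r Λ t (C * P ^ 4) := by
  obtain ⟨Cg, hCg, hg⟩ := g.step_gram
  obtain ⟨Cs, hCs, hs⟩ := g.step_sp
  have hc := g.one
  refine ⟨4 * Cg + 2 * Cs + g.C + 12, by linarith, fun F W r Λ t M ε B K D P hv hP => ?_⟩
  have h := hv.sw
  have hΛ := h.gd.one
  have hM : 1 ≤ M := hΛ.trans h.ΛM
  have hP1 : 1 ≤ P := hM.trans h.MP
  have hΛP : Λ ≤ P := h.ΛM.trans h.MP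
  have ht := h.t0
  obtain ⟨⟨a5, a4, hP4, n1⟩, n2, n3, n4, n5, n6⟩ :=
    hstepd_num hCg hCs hc hM h.MP ht h.e0 h.eP h.BP hP
  have t1 : t ≤ 1 := by linarith only [a5, ht]
  have h80 : 0 < t ^ 8 := by positivity
  have h240 : 0 < t ^ 24 := by positivity
  have h24 : t ^ 24 ≤ t := pow_le_of_le_one ht.le t1 (by norm_num)
  have h248 : t ^ 24 ≤ t ^ 8 := pow_le_pow_of_le_one ht.le t1 (by norm_num)
  have hσ : 0 < 2 * t ^ 8 := by positivity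
  have hns : ‖((2 * t ^ 8 : ℝ) : ℂ)‖ = 2 * t ^ 8 := by rw [norm_real, Real.norm_of_nonneg hσ.le]
  have hsε : ‖((2 * t ^ 8 : ℝ) : ℂ)‖ < ε := hns.trans_lt n1
  have q0 : 0 < P ^ 4 := by positivity
  have q1 : 1 * P ^ 4 ≤ Cg * P ^ 4 := mul_le_mul_of_nonneg_right hCg q0.le
  have q2 : 1 * P ^ 4 ≤ Cs * P ^ 4 := mul_le_mul_of_nonneg_right hCs q0.le
  have q3 : 1 * P ^ 4 ≤ g.C * P ^ 4 := mul_le_mul_of_nonneg_right hc q0.le
  have q4 : 12 * P ^ 4 ≤ (4 * Cg + 2 * Cs + g.C + 12) * P ^ 4 := by linarith only [q0, q1, q2, q3]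
  have q5 : 2 * Cg * P ^ 4 + 5 * P ^ 4 ≤ (4 * Cg + 2 * Cs + g.C + 12) * P ^ 4 := by
    linarith only [q0, q1, q2, q3]
  have q6 : g.C * Λ ≤ (4 * Cg + 2 * Cs + g.C + 12) * P ^ 4 := by
    have b1 := mul_le_mul_of_nonneg_left (hΛP.trans hP4) (by linarith only [hc] : 0 ≤ g.C)
    linarith only [q0, q1, q2, b1]
  generalize (4 * Cg + 2 * Cs + g.C + 12) * P ^ 4 = Q at q4 q5 q6 ⊢
  have q7 : 12 * M * t ^ 8 ≤ Q * t ^ 8 :=
    mul_le_mul_of_nonneg_right (by linarith only [q4, hP4, h.MP]) h80.le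
  have q8 : 0 ≤ M * t ^ 8 := by positivity
  have hr : ∀ z : ℂ, ‖z‖ ≤ r - 3 * t ^ 24 → ‖z‖ < r - t ^ 24 ∧ ‖z‖ ≤ r := fun z hz =>
    ⟨by linarith only [hz, h240], by linarith only [hz, h240]⟩
  have hy0 : ∀ z e, ‖e‖ ≤ 1 → ‖z‖ ≤ r - 3 * t ^ 24 →
      ‖A.e (A.ch (F (z, 0))) (sh W ((0 : ℂ) • e) (z, 0))‖ ≤ 1 := fun z e he hz => by
    rw [(hv.fam z e he hz).c0]
    exact (Atl.ch_in _).2.le
  have key : ∀ u z, ‖u‖ ≤ 2 * t ^ 8 → ‖z‖ ≤ r - 3 * t ^ 24 → A.Hol (sh W u) (z, 0) ∧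
      A.In (A.ch (F (z, 0))) 4 (sh W u (z, 0)) ∧
      ‖g.Gr (sh W u) z - g.Gr F z‖ ≤ 2 * Cg * (P ^ 4 * t ^ 8) := fun u z hu hz => by
    obtain ⟨e, he, rfl⟩ := hstepd_dir hσ hu
    have hf := hv.fam z e he hz
    obtain ⟨b1, b2⟩ := hg (A.ch (F (z, 0))) _ _ _ ε M B _ hf.fam (hy0 z e he hz) hM h.eM hsε
    have hin : A.In (A.ch (F (z, 0))) 4 (sh W (((2 * t ^ 8 : ℝ) : ℂ) • e) (z, 0)) :=
      ⟨(hf.hol _ hsε).1, b1⟩
    refine ⟨(hf.hol _ hsε).2, hin, ?_⟩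
    rw [g.Gr_eq (hf.hol _ hsε).2.holAt hin]
    rw [hf.c0, hf.v0, hns] at b2
    exact le_trans b2 n2
  have hw1 : ∀ z e, ‖e‖ ≤ 1 → ‖z‖ ≤ r - 3 * t ^ 24 →
      ‖deriv (fun s : ℂ => A.dv (A.ch (F (z, 0))) (ctr (sh W (s • e))) z) 0‖ ≤ 2 * M :=
    fun z e he hz => by
      obtain ⟨b1, -, b2⟩ := h.ti.fr (A.ch (F (z, 0))) z (hr z hz).1 (Atl.in_ch _ (by norm_num))
      rw [(hv.fam z e he hz).w1]
      exact hstepd_der b1 b2 ((hr z hz).2.trans h.gd.le) he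
  have hsp : ∀ u z, ‖u‖ ≤ 2 * t ^ 8 → ‖z‖ ≤ r - 3 * t ^ 24 →
      g.sp (ctr (sh W u)) z ≤ (2 * Λ) ^ 2 := fun u z hu hz => by
    obtain ⟨k1, k2, -⟩ := key u z hu hz
    obtain ⟨e, he, rfl⟩ := hstepd_dir hσ hu
    have hf := hv.fam z e he hz
    have hh : A.HolAt (ctr (sh W (((2 * t ^ 8 : ℝ) : ℂ) • e))) z :=
      Atl.HolAt.comp (φ := fun z : ℂ => (z, (0 : E n))) k1.holAt
        (differentiableAt_id.prodMk (differentiableAt_const _))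
    rw [g.sp_eq hh k2]
    have b0 := hs (A.ch (F (z, 0))) _ _ _ ε M B Λ _ hf.fam (hy0 z e he hz) hΛ hM h.eM hsε
    refine b0 (hw1 z e he hz) (by rw [hns]; exact n3) (by rw [hns]; exact n4) ?_
    have b1 := h.gd.sp z (hr z hz).2
    rw [Met.sp] at b1
    rw [hf.c0, hf.w0]
    exact b1
  have hbs : ∀ u, ‖u‖ ≤ 2 * t ^ 8 → A.Bs (sh W u) (ball 0 (r - 3 * t ^ 24)) := fun u hu z hz => by
    have hz' : ‖z‖ ≤ r - 3 * t ^ 24 := (mem_ball_zero_iff.1 hz).le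
    obtain ⟨k1, k2, k3⟩ := key u z hu hz'
    exact ⟨k1, fun j hj => Atl.unit_chg k1.holAt hj k2.1
      (g.fr_unit k1.holAt k2 (M := 2 * M) (by linarith only [hM])
        (stepx1_lo hM k3 n5 (h.gr z (hr z hz').2).2)).1⟩
  have htF : ∀ z, r - 4 * t ^ 24 ≤ ‖z‖ → ‖z‖ ≤ r → ‖g.Gr F z - 1‖ ≤ 5 * P ^ 4 * t ^ 24 :=
    fun z h1 h2 => by
      have b0 : Λ * t ^ 24 ≤ P * t := mul_le_mul hΛP h24 h240.le (by linarith only [hP1])
      have b1 := h.tol z h2 (by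
        have b2 : 4 * t ^ 24 ≤ K / Λ := by
          rw [le_div_iff₀ (by linarith only [hΛ])]
          linarith only [h.K1, b0, a4]
        linarith only [b2, h1])
      have b3 : Λ * (r - ‖z‖) ≤ P * (4 * t ^ 24) :=
        mul_le_mul hΛP (by linarith only [h1]) (by linarith only [h2]) (by linarith only [hP1])
      have b4 : 0 ≤ Λ * (r - ‖z‖) := mul_nonneg (by linarith only [hΛ]) (by linarith only [h2])
      have b5 : 1 * t ^ 24 ≤ P * t ^ 24 := mul_le_mul_of_nonneg_right hP1 h240.le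
      have b6 : D * (t ^ 24 + Λ * (r - ‖z‖)) ≤ P * (5 * (P * t ^ 24)) :=
        mul_le_mul (h.DΛ.trans hΛP) (by linarith only [b3, b5]) (by positivity)
          (by linarith only [hP1])
      have b7 : P ^ 2 * t ^ 24 ≤ P ^ 4 * t ^ 24 :=
        mul_le_mul_of_nonneg_right (pow_le_pow_right₀ hP1 (by norm_num)) h240.le
      linarith only [b1, b6, b7]
  refine ⟨by linarith only [hΛP, hP4, q4, q0], ⟨fun z u hz hu => ?_, fun u hu => hbs u hu.le⟩,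
    fun u hu => ⟨by linarith only [hP1, hP4, q4], hbs u hu, fun z hz => ?_, fun z hz => ?_⟩, hsp,
    fun u z hu h1 h2 => ?_, fun z h1 h2 => ?_, fun z hz => ?_, fun u z hu hz => ?_⟩
  · have ho : IsOpen {p : ℂ × E n | ‖p.1‖ < r - 2 * t ^ 24 ∧ ‖p.2‖ < 2 * ε} :=
      (isOpen_lt continuous_fst.norm continuous_const).inter
        (isOpen_lt continuous_snd.norm continuous_const)
    have b1 : ‖z • u‖ ≤ 1 * ‖u‖ := by
      rw [norm_smul]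
      exact mul_le_mul_of_nonneg_right ((hr z hz.le).2.trans h.gd.le) (norm_nonneg _)
    filter_upwards [ho.mem_nhds (x := (z, z • u))
      ⟨by linarith only [hz, h240], by linarith only [b1, hu, n1, h.e0]⟩] with p hp
    exact hv.hol p.1 p.2 hp.1 hp.2
  · exact (hsp u z hu hz.le).trans
      (pow_le_pow_left₀ (by linarith only [hΛ]) (by linarith only [hΛP, hP4, q4, q0]) 2)
  · have b1 := (h.gr z (hr z hz.le).2).1
    have b2 := norm_le_insert' (g.Gr (sh W u) z) (g.Gr F z)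
    have b3 := (key u z hu hz.le).2.2
    linarith only [b1, b2, b3, n6, q4, h.MP, hP1, hP4]
  · have b1 := htF z h1 (hr z h2).2
    have b2 := (key u z hu h2).2.2
    have b3 := norm_sub_le_norm_sub_add_norm_sub (g.Gr (sh W u) z) (g.Gr F z) 1
    have b4 := mul_le_mul_of_nonneg_left h248 q0.le
    have b5 := mul_le_mul_of_nonneg_right q5 h80.le
    linarith only [b1, b2, b3, b4, b5]
  · exact (htF z h1 h2).trans
      (mul_le_mul_of_nonneg_right (by linarith only [q4, q0]) h240.le)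
  · have hf := hv.fam z 0 (by simp) hz
    have b1 := hf.c0
    have b2 := hf.v0
    rw [smul_zero, sh_zero] at b1 b2
    exact ⟨b1, b2⟩
  · obtain ⟨-, k2, -⟩ := key u z hu hz
    obtain ⟨e, he, rfl⟩ := hstepd_dir hσ hu
    have hf := hv.fam z e he hz
    have b1 := hf.fam.ly _ hsε
    have b2 := hstepd_w hf.fam hM hsε (hw1 z e he hz) (by rw [hns]; exact n3)
    rw [hf.c0, hns] at b1
    rw [hf.w0, hns] at b2
    have b3 := norm_le_insert' (A.e (A.ch (F (z, 0))) (sh W (((2 * t ^ 8 : ℝ) : ℂ) • e) (z, 0)))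
      (A.e (A.ch (F (z, 0))) (F (z, 0)))
    have b4 := (Atl.ch_in (A := A) (F (z, 0))).2
    have b5 := mul_le_mul_of_nonneg_left n1.le (by linarith only [hM] : 0 ≤ 4 * M)
    have b6 : A.HolAt (ctr F) z := Atl.HolAt.comp (φ := fun z : ℂ => (z, (0 : E n)))
      (h.gd.bs z (mem_closedBall_zero_iff.2 (hr z hz).2)).1.holAt
      (differentiableAt_id.prodMk (differentiableAt_const _))
    have b7 : A.In (A.ch (F (z, 0))) 4 (ctr F z) := Atl.in_ch (F (z, 0)) (by norm_num)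
    have b8 := g.dv_le b6 b7 (by linarith only [hΛ]) (h.gd.sp z (hr z hz).2)
    exact ⟨⟨k2.1, by linarith only [b1, b3, b4, b5, h.eM]⟩, by linarith only [b1, q7, q8],
      by linarith only [b2, q7], b8.trans q6⟩

end Vale.Agent.P272
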