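import Vale.Agent.P272.F.H.Defs
import Vale.Agent.P272.StepX3

/-! P272 F/H/StepE (task). Helper names start with `hstepe_`.
Plan. Copy the proof of `Met.stepX3` (file StepX3) with `eb i` replaced by `e` and `SV.fam`. -/

open Metric Set Filter Topology Complex MeasureTheory
open scoped ContDiff

noncomputable section

namespace Vale.Agent.P272

variable {n : ℕ} {X : Type} [TopologicalSpace X] {A : Atl n X}

theorem Met.stepE [T2Space X] (g : Met A) {D : ℝ} (hD : 1 ≤ D) : ∃ C : ℝ, 1 ≤ C ∧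
    ∀ (F W : ℂ × E n → X) (r Λ t M ε B K P : ℝ), g.SV F W r Λ t M ε B K D P →
      C * P ^ 4 * t ≤ 1 → ∀ (e : E n) (p : ℝ) (z : ℂ), ‖e‖ ≤ 1 → 1 ≤ p → p ≤ Λ →
      ‖z‖ ≤ r - 3 * t ^ 24 → r - K / Λ ≤ ‖z‖ →
      ∑ m : Fin 4, Real.exp (p * g.sp (ctr (sh W (pt (t ^ 8) m • e))) z / Λ ^ 2) ≤
        4 * (Real.exp (p * g.sp (ctr F) z / Λ ^ 2) * (1 + C * p ^ 2 * t ^ 16)) := by
  obtain ⟨C, hC, H⟩ := g.step_exp (D := 2 * D) (by linarith)
  refine ⟨2 * C, by linarith, ?_⟩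
  intro F W r Λ t M ε B K P hV hs e p z he hp1 hpΛ hz hz'
  have h := hV.sw
  have ht := h.t0
  have hΛ := h.gd.one
  have hM : 1 ≤ M := hΛ.trans h.ΛM
  obtain ⟨n1, n2, n3⟩ := stepx3_num hC hM h.MP h.B1 ht h.BP h.e0 h.eM h.eP hs
  have t24 : 0 < t ^ 24 := by positivity
  have t8 : 0 < t ^ 8 := by positivity
  have hz1 : ‖z‖ ≤ 1 := by linarith [h.gd.le]
  have fa := hV.fam z e he hz
  obtain ⟨l1, l2⟩ := h.lay _ z (by linarith) hz' (Atl.in_ch (F (z, 0)) (by norm_num))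
  have y0 : ‖A.e (A.ch (F (z, 0))) (sh W ((0 : ℂ) • e) (z, 0))‖ ≤ 1 := by
    rw [fa.c0]
    exact (Atl.ch_in _).2.le
  have b1 : ‖A.fr (A.ch (F (z, 0))) F z e‖ ≤ D := by
    refine ((A.fr _ F z).le_opNorm _).trans ?_
    exact (mul_le_of_le_one_right (norm_nonneg _) he).trans l1
  have b2 : ‖deriv (A.fr (A.ch (F (z, 0))) F) z e‖ ≤ D * Λ := by
    refine ((deriv (A.fr _ F) z).le_opNorm _).trans ?_
    exact (mul_le_of_le_one_right (norm_nonneg _) he).trans l2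
  have q0 : qf (g.Γ (A.ch (F (z, 0))) (A.e (A.ch (F (z, 0))) (sh W ((0 : ℂ) • e) (z, 0))))
      (A.dv (A.ch (F (z, 0))) (ctr (sh W ((0 : ℂ) • e))) z) = g.sp (ctr F) z := by
    rw [fa.c0, fa.w0]
    rfl
  have key := H _ _ _ _ ε M B Λ (t ^ 8) p fa.fam y0 hΛ hM h.B1 h.e0 h.eM t8 n1
    (by
      rw [fa.y1, norm_smul]
      have := mul_le_mul hz1 b1 (norm_nonneg _) zero_le_one
      linarith)
    (by
      rw [fa.w1]
      refine (norm_add_le _ _).trans ?_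
      rw [norm_smul]
      have := mul_le_mul hz1 b2 (norm_nonneg _) zero_le_one
      nlinarith)
    (q0.trans_le (h.gd.sp z (by linarith))) hp1
    (le_trans (by have := hpΛ.trans (h.ΛM.trans h.MP); gcongr) n3)
  simp only [q0] at key
  refine le_trans (le_of_eq (Finset.sum_congr rfl fun m _ => ?_)) (key.trans ?_)
  · have hs' : ‖pt (t ^ 8) m‖ < ε := by rwa [norm_pt t8.le]
    obtain ⟨s1, s2⟩ := fa.hol _ hs'
    have s3 := fa.fam.ly _ hs'
    have s4 : ‖A.e (A.ch (F (z, 0))) (sh W (pt (t ^ 8) m • e) (z, 0))‖ ≤ 4 := by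
      have a1 := norm_le_insert' (A.e (A.ch (F (z, 0))) (sh W (pt (t ^ 8) m • e) (z, 0)))
        (A.e (A.ch (F (z, 0))) (sh W ((0 : ℂ) • e) (z, 0)))
      have a2 : 4 * M * ‖pt (t ^ 8) m‖ ≤ 4 * M * ε := by gcongr
      linarith [h.eM]
    rw [g.sp_eq s2.ctr.holAt (j := A.ch (F (z, 0))) ⟨s1, s4⟩]
    rfl
  · rw [← pow_mul]
    gcongr
    linarith

end Vale.Agent.P272
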