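import Vale.Agent.P272.F.H.Defs
import Vale.Agent.P272.StepW

/-! P272 F/H/StepV (task). Helper names start with `hstepv_`.
Plan. `tb_famV`: copy the proof of `tb_famAt` (file Fam) with `eb i` replaced by `e`; rewrite with `sh_smul` first (`simp only [sh_smul]`). `stepV`: copy the proof of `Met.stepW`. -/

open Metric Set Filter Topology Complex MeasureTheory
open scoped ContDiff

noncomputable section

namespace Vale.Agent.P272

variable {n : ℕ} {X : Type} [TopologicalSpace X] {A : Atl n X}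

theorem tb_famV {F W : ℂ × E n → X} {R ε M H τ : ℝ} (h : A.Tb F W R (2 * ε) M H) (hR : R ≤ 1)
    (hM : 0 ≤ M) (hH : 0 ≤ H) (hτ : 0 < τ) (h1 : τ ^ 4 ≤ ε) (h2 : ε ≤ 1) (h3 : H * τ ^ 3 ≤ 1)
    {k : Fin A.N} {e : E n} (he : ‖e‖ ≤ 1) {z : ℂ} (hz : ‖z‖ + τ ^ 4 ≤ R)
    (hk : A.In k 1 (F (z, 0))) : A.FamV F W k e z ε M (H / τ + 16 * M) := by
  have hρ : 0 < τ ^ 4 := by positivity
  have hε : 0 < ε := hρ.trans_le h1
  have hb : ∀ ζ ∈ ball z (τ ^ 4), ‖ζ‖ < R := fun ζ hζ => by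
    have := mem_ball_iff_norm.1 hζ
    linarith [norm_sub_norm_le ζ z]
  have hzz : z ∈ ball z (τ ^ 4) := mem_ball_self hρ
  have hzR := hb z hzz
  have hk2 : A.In k 2 (F (z, 0)) := hk.mono (by norm_num)
  have hh : ∀ ζ ∈ ball z (τ ^ 4), ∀ u : E n, ‖u‖ < 2 * ε → W (ζ, u) ∈ (A.e k).source ∧
      ‖A.e k (W (z, u)) - A.e k (W (ζ, u))‖ ≤ H * τ ^ 3 := fun ζ hζ u hu => by
    have hd : ‖z - ζ‖ ≤ τ ^ 4 := by rw [norm_sub_rev]; exact (mem_ball_iff_norm.1 hζ).le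
    obtain ⟨a1, a2⟩ := h.hold k z ζ u hzR (hb ζ hζ) hu hk2 (by linarith)
    refine ⟨a1, a2.trans (mul_le_mul_of_nonneg_left ?_ hH)⟩
    calc ‖z - ζ‖ ^ (3 / 4 : ℝ) ≤ (τ ^ 4) ^ (3 / 4 : ℝ) :=
          Real.rpow_le_rpow (norm_nonneg _) hd (by norm_num)
      _ = τ ^ 3 := by
          rw [← Real.rpow_natCast, ← Real.rpow_mul hτ.le, ← Real.rpow_natCast]; norm_num
  have h0 : ‖(0 : E n)‖ < 2 * ε := by simpa using hε
  have hin : ∀ ζ ∈ ball z (τ ^ 4), A.In k 2 (F (ζ, 0)) := fun ζ hζ => by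
    obtain ⟨a1, a2⟩ := hh ζ hζ 0 h0
    rw [h.ctr ζ (hb ζ hζ)] at a1 a2
    rw [h.ctr z hzR, norm_sub_rev] at a2
    exact ⟨a1, by linarith [norm_sub_norm_le (A.e k (F (ζ, 0))) (A.e k (F (z, 0))), hk.2]⟩
  obtain ⟨c1, c2, c3⟩ := famx_core (Y := A.e k ∘ W) (M := M) (H := H * τ ^ 3) he hρ hε h2 hM
    (fun ζ hζ => (hb ζ hζ).le.trans hR)
    (fun p hp => ((h.hol p.1 p.2 (hb _ hp.1) (mem_ball_zero_iff.1 hp.2)).2 k
      (hh _ hp.1 _ (mem_ball_zero_iff.1 hp.2)).1).differentiableWithinAt)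
    (fun ζ hζ u hu => by
      have := (h.near k ζ u (hb ζ hζ) hu (hin ζ hζ)).2
      rwa [← h.ctr ζ (hb ζ hζ)] at this) (fun ζ hζ u hu => (hh ζ hζ u hu).2)
  have hB : H * τ ^ 3 / τ ^ 4 = H / τ := by field_simp
  rw [hB] at c1
  have hfr : A.fr k W =ᶠ[𝓝 z] A.fr k F := by
    filter_upwards [isOpen_ball.mem_nhds hzz] with ζ hζ
    exact h.fr k ζ (hb ζ hζ) (hin ζ hζ).1
  have hs0 : sh W ((0 : ℂ) • e) = W := by rw [zero_smul, sh_zero]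
  have hsm : ∀ s : ℂ, ‖s‖ < ε → ‖(z * s) • e + 0‖ < 2 * ε := fun s hs => by
    rw [add_zero, norm_smul, norm_mul]
    calc ‖z‖ * ‖s‖ * ‖e‖ ≤ 1 * ‖s‖ * 1 := by gcongr; linarith
      _ < 2 * ε := by linarith
  refine ⟨by simp only [sh_smul]; exact c1, by rw [hs0, h.ctr z hzR], ?_, by rw [hs0, hfr.self_of_nhds], ?_, ?_, fun s hs => ⟨?_, ?_⟩⟩
  · rw [hs0]
    refine Filter.EventuallyEq.deriv_eq ?_
    filter_upwards [isOpen_ball.mem_nhds hzz] with ζ hζ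
    exact congrArg (A.e k) (h.ctr ζ (hb ζ hζ))
  · rw [← hfr.self_of_nhds]
    simp only [sh_smul]
    exact c2
  · rw [← hfr.self_of_nhds, ← hfr.deriv_eq]
    simp only [sh_smul]
    exact c3
  · rw [sh_smul]
    exact (hh z hzz _ (hsm s hs)).1
  · have hφ : ∀ q : ℂ × E n, DifferentiableAt ℂ
        (fun p : ℂ × E n => ((p.1, (p.1 * s) • e + p.2) : ℂ × E n)) q := fun q => by fun_prop
    rw [sh_smul]
    refine Atl.Hol.comp (F := W) (φ := fun p : ℂ × E n => (p.1, (p.1 * s) • e + p.2)) ?_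
      (Eventually.of_forall hφ)
    have ho : IsOpen (ball (0 : ℂ) R ×ˢ ball (0 : E n) (2 * ε)) := isOpen_ball.prod isOpen_ball
    filter_upwards [ho.mem_nhds (show ((z, (z * s) • e + 0) : ℂ × E n) ∈ _ from
      ⟨mem_ball_zero_iff.2 hzR, mem_ball_zero_iff.2 (hsm s hs)⟩)] with p hp
    exact h.hol p.1 p.2 (mem_ball_zero_iff.1 hp.1) (mem_ball_zero_iff.1 hp.2)

theorem Met.stepV [T2Space X] {g : Met A} {C₁ : ℝ} (hB : g.Br C₁) {K : ℝ} (hK : 1 ≤ K) :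
    ∃ (C : ℕ) (D : ℝ), 1 ≤ C ∧ 1 ≤ D ∧ ∀ (F : ℂ × E n → X) (r Λ t : ℝ), (C : ℝ) ≤ Λ → 0 < t →
      t * Λ ^ C ≤ 1 → 3 / 4 ≤ r → g.Gd F r Λ (t ^ 24) →
      ∃ W M ε B, g.SV F W r Λ t M ε B K D (Λ ^ C) := by
  obtain ⟨c₁, hc₁, hA⟩ := Met.estA hB hK
  obtain ⟨D₂, hD₂, hE⟩ := Met.estB hB hK
  obtain ⟨c₃, hc₃, hT⟩ := Met.est hB
  obtain ⟨T, hT1, htube⟩ := g.tube
  have c1 : (1 : ℝ) ≤ c₁ := by exact_mod_cast hc₁
  refine ⟨4 * (c₁ + c₃) + 1 + ⌈c₁ + D₂ + 32 * T⌉₊, c₁ + D₂, by omega, by linarith,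
    fun F r Λ t hΛ ht htP hr hG => ?_⟩
  have hΛ' : c₁ + D₂ + 32 * T ≤ Λ := by
    refine (Nat.le_ceil _).trans (le_trans ?_ hΛ)
    exact_mod_cast Nat.le_add_left _ _
  have L2 : 2 ≤ Λ := by linarith
  have L1 : 1 ≤ Λ := by linarith
  obtain ⟨M, hM⟩ : ∃ M, M = Λ ^ (c₁ + c₃) := ⟨_, rfl⟩
  obtain ⟨P, hP⟩ : ∃ P, P = Λ ^ (4 * (c₁ + c₃) + 1 + ⌈c₁ + D₂ + 32 * T⌉₊) := ⟨_, rfl⟩
  rw [← hP] at htP ⊢
  have M1 : Λ ^ c₁ ≤ M := hM ▸ pow_le_pow_right₀ L1 (by omega)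
  have M3 : Λ ^ c₃ ≤ M := hM ▸ pow_le_pow_right₀ L1 (by omega)
  have ΛM : Λ ≤ M := (le_self_pow₀ L1 (by omega)).trans M1
  have M0 : 1 ≤ M := L1.trans ΛM
  have M4 : M ≤ M ^ 4 := le_self_pow₀ M0 (by norm_num)
  obtain ⟨H, hH⟩ : ∃ H, H = T * M ^ 4 := ⟨_, rfl⟩
  have MH : M ≤ H := by rw [hH]; nlinarith only [M4, M0, hT1]
  have HP : 32 * H ≤ P := by
    have e1 : Λ * M ^ 4 ≤ P := by
      rw [hM, hP, ← pow_mul, ← pow_succ']
      exact pow_le_pow_right₀ L1 (by omega)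
    rw [hH, ← mul_assoc]
    exact (mul_le_mul_of_nonneg_right (by linarith) (by positivity)).trans e1
  have H0 : 0 < H := by linarith
  have tH : t * H ≤ 1 / 32 := by nlinarith only [mul_le_mul_of_nonneg_left HP ht.le, htP]
  have t1 : t ≤ 1 / 32 := by nlinarith only [tH, MH, M0, ht]
  have tp : ∀ k : ℕ, k ≠ 0 → t ^ k ≤ t := fun k hk => pow_le_of_le_one ht.le (by linarith) hk
  have t24 := tp 24 (by norm_num)
  have t0 : 0 < t ^ 24 := by positivity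
  have t6 : 0 < t ^ 6 := by positivity
  obtain ⟨ε, hε⟩ : ∃ ε, ε = 1 / (8 * H) := ⟨_, rfl⟩
  have e0 : 0 < ε := by rw [hε]; positivity
  have eH : ε * H = 1 / 8 := by rw [hε]; field_simp
  have hti : g.TI F (r - t ^ 24) M := stepw_ti (hT F r Λ _ hG L2 t0) M3
  obtain ⟨W, hW⟩ := htube F _ M (2 * ε) (t ^ 24) hti (by linarith) (by rw [← hH]; linarith) t0
  rw [← hH] at hW
  have e4 : (t ^ 6) ^ 4 = t ^ 24 := by ring
  have q0 : r - t ^ 24 - t ^ 24 ≤ 1 := by linarith only [hG.le, t0]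
  have H2 : 2 ≤ H := by linarith only [MH, ΛM, L2]
  have q1 : (t ^ 6) ^ 4 ≤ ε := by
    rw [e4]
    refine t24.trans (le_of_mul_le_mul_right ?_ H0)
    linarith only [tH, eH]
  have q2 : ε ≤ 1 := by nlinarith only [eH, H2, e0]
  have q3 : H * (t ^ 6) ^ 3 ≤ 1 := by
    rw [← pow_mul]
    nlinarith only [mul_le_mul_of_nonneg_left (tp (6 * 3) (by norm_num)) H0.le, tH]
  have q4 : 4 * M * ε ≤ 1 := by nlinarith only [mul_le_mul_of_nonneg_left MH e0.le, eH]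
  have q5 : 1 ≤ ε * P := by nlinarith only [mul_le_mul_of_nonneg_left HP e0.le, eH]
  have q6 : (H / t ^ 6 + 16 * M) * t ^ 6 ≤ P := by
    rw [add_mul, div_mul_cancel₀ _ t6.ne']
    nlinarith only [mul_le_mul_of_nonneg_left ((tp 6 (by norm_num)).trans t1)
      (zero_le_one.trans M0), MH, HP, H0]
  have hA' := hA F r Λ _ hG L2
  refine ⟨W, M, ε, H / t ^ 6 + 16 * M, ⟨hG, hr, ht, hK, by linarith, by linarith, ΛM, by linarith,
    ?_, q6, e0, q4, q5, hti, fun z i hz => ?_, fun j i s hj => ?_,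
    fun z hz => ⟨(hA' z hz).1.1.trans M1, fun ξ => ?_⟩, fun z hz hz' => ?_, fun j z hz hz' hj => ?_⟩,
    fun z e he hz => ?_, fun z u hz hu => hW.hol z u (by linarith) hu⟩
  · linarith [div_pos H0 t6]
  · exact tb_famAt hW q0 (by linarith) H0.le t6 q1 q2 q3 i
      (by rw [e4]; linarith) ⟨(A.cov _).choose_spec.1, (A.cov _).choose_spec.2.le⟩
  · exact tb_cen hW (by linarith) (by linarith) i s hj.1
  · have h1 := (hA' z hz).1.2 ξ
    have h2 : 0 ≤ qf (g.Gr F z) ξ :=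
      nonneg_of_mul_nonneg_right ((sq_nonneg _).trans h1) (by positivity)
    exact h1.trans (mul_le_mul_of_nonneg_right M1 h2)
  · refine ((hA' z hz).2.2 hz').1.trans (mul_le_mul_of_nonneg_right (by linarith) ?_)
    exact add_nonneg t0.le (mul_nonneg (by linarith) (sub_nonneg.2 hz))
  · refine ⟨(((hA' z (by linarith)).2.2 hz').2 j ⟨hj.1, by linarith [hj.2]⟩).trans (by linarith),
      (hE F r Λ _ hG j z (by linarith) (by linarith) hz' hj).trans ?_⟩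
    exact mul_le_mul_of_nonneg_right (by linarith) (by linarith)
  · exact tb_famV hW q0 (by linarith) H0.le t6 q1 q2 q3 he
      (by rw [e4]; linarith) ⟨(A.cov _).choose_spec.1, (A.cov _).choose_spec.2.le⟩

end Vale.Agent.P272
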