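import Vale.Agent.P272.F.H.Sel
import Vale.Agent.P272.F.H.StepV
import Vale.Agent.P272.F.H.StepD
import Vale.Agent.P272.F.H.StepE
import Vale.Agent.P272.CoreS

/-! P272 F/H/Step (task). Helper names start with `hstep_`.
Plan. Copy the proof of `core_step` (file CoreS): `stepV` with `K = 4 + 2 |C₁|`, `stepD`, `sel`, `stepE`, `stepY` for `sh W (pt (t^8) m • e)` (`DS.cr`, `DS.tol`, `norm_pt`), `lip_est`, `Jt_up` (`SW.gr`); `Jt` and `aF` depend on `F'` only through `ctr F'` and `Jf F' r'`; `sh_cen`, `DS.c0`. The exponent `12 c + 1` of `cores_num` is enough (`P' = C P^4`, `P'^3 = C^3 P^12`). -/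

open Metric Set Filter Topology Complex MeasureTheory
open scoped ContDiff

noncomputable section

namespace Vale.Agent.P272

variable {n : ℕ} {X : Type} [TopologicalSpace X] {A : Atl n X}

theorem stepH [T2Space X] (hn : 1 ≤ n) {ρ : A.Pot} (hρ : ρ.Pos) (v : A.LV) {r₀ C₀ ε η : ℝ} (B : ℝ)
    (hN : A.Near r₀) (hB : Atl.NB v.toPot ρ C₀) (hε : 0 ≤ ε) (hη : 0 ≤ η) :
    ∃ C₃ : ℝ, ∀ (φ : X → ℝ) (K C C₁ : ℝ) (g : Met A) (w : Vol g),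
      MV ρ v (ε * η / (2 + η)) φ K C g w → g.Br C₁ → ∃ (N : ℕ) (c : ℝ), 2 ≤ N ∧ 1 ≤ c ∧
      ∀ (β : ℝ) (ψ b : X → ℝ) (F : ℂ × E n → X) (r Λ t : ℝ) (j : Fin A.N), 0 < β →
      Atl.Bar ρ v ε η B β ψ b → β * c * Λ ^ 4 ≤ 1 → (N : ℝ) ≤ Λ → 0 < t → t * Λ ^ N ≤ 1 →
      3 / 4 ≤ r → g.Gd F r Λ (t ^ 24) → (∀ x, φ (F (0, 0)) ≤ φ x) → A.In j 1 (F (0, 0)) →
      Jt w ρ (ε * η / (2 + η)) F r ≤ Λ ^ N ∧ ∀ γ : ℝ, 0 ≤ γ →
      ∃ (F' : Fin 4 → ℂ × E n → X) (r' : ℝ), r - 4 * t ^ 24 ≤ r' ∧ r' ≤ r ∧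
        (∀ k, A.Bs (F' k) (closedBall 0 r') ∧ F' k (0, 0) = F (0, 0) ∧
          (∀ z, ‖z‖ = r' → ‖g.Gr (F' k) z - 1‖ ≤ t ^ 25) ∧
          (∀ z, ‖z‖ ≤ r' → g.sp (ctr (F' k)) z ≤ (2 * Λ) ^ 2) ∧ ∀ z z', ‖z‖ ≤ r' → ‖z'‖ ≤ r' →
            g.sp (ctr (F' k)) z' ≤ g.sp (ctr (F' k)) z + ‖z - z'‖ / t ^ 25) ∧
        4 * (aF ρ b j r₀ (ctr F) + γ * Jt w ρ (ε * η / (2 + η)) F r + t ^ 16 *
          (r₀ ^ 2 * (1 + η / 2) * Real.exp ((-φ (F (0, 0)) - C₃) / n) / (n * K) *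
            (1 + Jt w ρ (ε * η / (2 + η)) F r) - γ / (2 * (K / 4)))) ≤
          ∑ k, (aF ρ b j r₀ (ctr (F' k)) + γ * Jt w ρ (ε * η / (2 + η)) (F' k) r') ∧
        ∀ (p : ℝ) (z : ℂ), 1 ≤ p → p ≤ Λ → ‖z‖ ≤ r' → r - (4 + 2 * |C₁|) / Λ ≤ ‖z‖ →
          ∑ k, Real.exp (p * g.sp (ctr (F' k)) z / Λ ^ 2) ≤
            4 * (Real.exp (p * g.sp (ctr F) z / Λ ^ 2) * (1 + N * p ^ 2 * t ^ 16)) := by
  obtain ⟨C₃, hsel⟩ := sel hn hρ v B hN hB hε hη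
  refine ⟨C₃, fun φ K C C₁ g w hMV hBr => ?_⟩
  obtain ⟨CS, hCS, hsel⟩ := hsel φ K C g w hMV
  have hK : (1 : ℝ) ≤ 4 + 2 * |C₁| := by linarith [abs_nonneg C₁]
  obtain ⟨c, D, hc, hD, hW⟩ := Met.stepV hBr hK
  obtain ⟨C1, hC1, hX1⟩ := g.stepD
  obtain ⟨C3, hC3, hX3⟩ := g.stepE hD
  obtain ⟨CY, hCY, hY⟩ := g.stepY
  obtain ⟨CL, hCL, hL⟩ := g.lip_est
  obtain ⟨CJ, hCJ, hJ⟩ := Jt_up (w := w) (ρ := ρ) (ε := ε * η / (2 + η)) (by positivity)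
  have p1 : 0 ≤ 2 * CL * C1 ^ 3 := by positivity
  have p2 : 0 ≤ CY * C1 ^ 3 := by positivity
  have p3 : 0 ≤ CS * C1 ^ 3 := by positivity
  obtain ⟨Q, hQ⟩ : ∃ Q, Q = 2 * CL * C1 ^ 3 + CY * C1 ^ 3 + CS * C1 ^ 3 + C1 + C3 + CJ + 4 :=
    ⟨_, rfl⟩
  refine ⟨12 * c + 1 + ⌈Q⌉₊, CS, by omega, hCS,
    fun β ψ b F r Λ t j hβ hbar hβΛ hΛ ht htΛ hr hG hmin hj => ?_⟩
  obtain ⟨N, hCd⟩ : ∃ N, N = 12 * c + 1 + ⌈Q⌉₊ := ⟨_, rfl⟩
  rw [← hCd] at hΛ htΛ ⊢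
  have hQC : Q ≤ N := (Nat.le_ceil Q).trans (Nat.cast_le.2 (by omega))
  have hcC : (c : ℝ) ≤ N := Nat.cast_le.2 (by omega)
  have h1 : 1 ≤ Λ := hG.one
  have num : ∀ {x : ℝ}, x ≤ Q → ∀ {k : ℕ}, k ≤ 12 →
      x * (Λ ^ c) ^ k ≤ Λ ^ N ∧ x * (Λ ^ c) ^ k * t ≤ 1 :=
    fun hx _ hk => cores_num (by omega) (hQC.trans hΛ) h1 ht htΛ hx hk
  have ht4 : 4 * t ≤ 1 := by simpa using (num (x := 4) (by linarith) (k := 0) (by norm_num)).2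
  obtain ⟨t1, t2, t3⟩ := cores_t ht ht4
  have t0 : 0 < t ^ 24 := by positivity
  have t8 : 0 < t ^ 8 := by positivity
  have t80 : 0 < t ^ 80 := by positivity
  have t220 : 0 < t ^ 220 := by positivity
  obtain ⟨W, M, ε', B', hS⟩ := hW F r Λ t (hcC.trans hΛ) ht (by
    have := (num (x := 1) (by linarith) (k := 1) (by norm_num)).2
    linarith [mul_comm t (Λ ^ c)]) hr hG
  have hr1 := hG.le
  have X1 := hX1 F W r Λ t M ε' B' _ D _ hS (num (by linarith) (by norm_num)).2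
  have X3 := hX3 F W r Λ t M ε' B' _ _ hS (num (by linarith) (by norm_num)).2
  refine ⟨?_, fun γ hγ => ?_⟩
  · refine (hJ F r Λ _ M hG hS.sw.ΛM (hS.sw.gr 0 (by rw [norm_zero]; linarith)).1).trans ?_
    refine le_trans ?_ (num (x := CJ) (by linarith) (k := 2) (by norm_num)).1
    exact mul_le_mul_of_nonneg_left (pow_le_pow_left₀ (by linarith [hS.sw.ΛM]) hS.sw.MP 2)
      (by linarith)
  obtain ⟨e, he, X2⟩ := hsel β ψ b F W r Λ t _ (r - 3 * t ^ 24 - t ^ 24 / 2 - t ^ 80 - t ^ 220) γ j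
    hβ hbar hG hr ht X1 (by
      have := (num (x := CS * C1 ^ 3) (by linarith) (k := 12) le_rfl).2
      calc _ = CS * C1 ^ 3 * (Λ ^ c) ^ 12 * t := by ring
        _ ≤ 1 := this) hβΛ hmin hj (by linarith) (by linarith) hγ
  have hu : ∀ k : Fin 4, ‖pt (t ^ 8) k • e‖ ≤ 2 * t ^ 8 := fun k => by
    rw [norm_smul, norm_pt t8.le]
    nlinarith
  have hYk : ∀ k : Fin 4, _ := fun k =>
    hY _ _ _ t (X1.cr _ (hu k)) (by linarith) (by linarith) ht (by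
      have := (num (x := CY * C1 ^ 3) (by linarith) (k := 12) le_rfl).2
      calc _ = CY * C1 ^ 3 * (Λ ^ c) ^ 12 * t := by ring
        _ ≤ 1 := this) fun z hz => X1.tol _ z (hu k) (by linarith) (by linarith)
  choose F' e1 e2 e3 e4 using hYk
  refine ⟨F', r - 3 * t ^ 24 - t ^ 24 / 2 - t ^ 80 - t ^ 220, by linarith, by linarith,
    fun k => ⟨e2 k, ?_, e3 k, fun z hz => ?_, fun z z' hz hz' => ?_⟩, ?_,
    fun p z hp hpΛ hz hzK => ?_⟩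
  · exact (congrFun (e1 k) 0).trans ((sh_cen W _ 0).trans
      (X1.c0 0 (by rw [norm_zero]; linarith)).1)
  · rw [e1 k]
    exact X1.sp _ z (hu k) (by linarith)
  · rw [e1 k]
    have h2 := (hL _ _ _ (t ^ 24 / 2) (X1.cr _ (hu k)) (by positivity) (by linarith) z z'
      (by linarith) (by linarith)).2
    have h3 : CL * (C1 * (Λ ^ c) ^ 4) ^ 3 / (t ^ 24 / 2) ≤ 1 / t ^ 25 := by
      rw [div_le_div_iff₀ (by positivity) (by positivity)]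
      have := (num (x := 2 * CL * C1 ^ 3) (by linarith) (k := 12) le_rfl).2
      calc _ = 2 * CL * C1 ^ 3 * (Λ ^ c) ^ 12 * t * (t ^ 24 / 2) := by ring
        _ ≤ 1 * (t ^ 24 / 2) := mul_le_mul_of_nonneg_right this (by positivity)
        _ = _ := rfl
    have h4 := mul_le_mul_of_nonneg_right h3 (norm_nonneg (z - z'))
    have h5 := (abs_le.1 h2).1
    rw [div_mul_eq_mul_div 1, one_mul] at h4
    linarith
  · refine X2.trans (le_of_eq (Finset.sum_congr rfl fun k _ => ?_))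
    rw [Jt, Jt, e1 k, e4 k w]
  · simp only [e1]
    refine (X3 e p z he hp hpΛ (by linarith) hzK).trans ?_
    have h2 : C3 ≤ N := by linarith
    gcongr

end Vale.Agent.P272
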